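import Claimed.Agent.R017.Order

/-!
# Row 17 chain, file 4: from the projective definitions of the Prelude to the affine chart `z = 1`.

`deh F = aeval ![X 0, X 1, 1] F`,  `aff v = ![v 0 / v 2, v 1 / v 2]`.

PROOF TEXTS.
* `e2 : ChartVariables 2 ≃ Fin 2`  sends `⟨0,_⟩ ↦ 0`, `⟨1,_⟩ ↦ 1`.
* `deh_eq_rename`: both sides are ring homs in `F` (`dehomogenize` is an `eval₂`); check on `C` and on `X 0, X 1, X 2`
  (`MvPolynomial.induction_on` or `ringHom_ext`; `fin_cases`).
* `deh_ne_zero`: `W16.dehomogenize_ne_zero` (Prelude) + `rename_injective`.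
* `deh_totalDegree_le`: `F = ∑ monomials of degree D`; `deh (monomial e c) = C c * X 0 ^ e 0 * X 1 ^ e 1` has total degree
  `≤ e 0 + e 1 ≤ D` (`totalDegree_finset_sum`, `totalDegree_mul`, `totalDegree_X_pow`; or `aeval`-degree lemma
  `MvPolynomial.totalDegree_aeval_le`-type if available).
* `deh_mul`: `map_mul`.
* `aff_eq_of_mk_eq`: `Projectivization.mk_eq_mk_iff'`: `v = a • w`, `a ≠ 0`; the quotients agree (`field_simp`;
  if `w 2 = 0` both sides are `0/0`-junk and still equal because `v 2 = a * w 2 = 0`... just `simp [mul_div_mul_left]`).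
* `order_of_mult`: put `P = mk v`.  `P.rep = a • v` with `a ≠ 0` (`Projectivization.mk_rep`, `mk_eq_mk_iff`), so
  `P.rep 2 ≠ 0`; `multiplicityAtLeast` at chart `2` gives `orderAtLeast (chartCoordinates 2 P) m (dehomogenize 2 F)`;
  `chartCoordinates 2 P c = P.rep c / P.rep 2 = v c / v 2`, i.e. `chartCoordinates 2 P = aff v ∘ e2`;
  conclude with `orderAtLeast_rename e2` and `deh_eq_rename`.
-/

set_option autoImplicit false

namespace Claimed.Agent.R017

open MvPolynomial
open Claims.C0025 Claims.C0025.Nagata Claims.C0025.Nagata.ProjectiveGeometry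
open Claims.C0025.Nagata.AffineMultiplicity

/-- the two variables of the chart `z ≠ 0` -/
def e2 : ChartVariables 2 ≃ Fin 2 where
  toFun c := if c.val = 0 then 0 else 1
  invFun i := if i = 0 then ⟨0, by decide⟩ else ⟨1, by decide⟩
  left_inv := by
    rintro ⟨c, hc⟩
    fin_cases c
    · simp
    · simp
    · exact absurd rfl hc
  right_inv := by
    intro i
    fin_cases i <;> simp

theorem deh_eq_rename (F : MvPolynomial (Fin 3) ℂ) : deh F = rename e2 (dehomogenize 2 F) := by
  unfold deh dehomogenize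
  induction F using MvPolynomial.induction_on with
  | C a => simp
  | add p q hp hq => simp only [map_add, eval₂_add, hp, hq]
  | mul_X p i hp =>
    simp only [map_mul, eval₂_mul, hp, aeval_X, eval₂_X]
    congr 1
    fin_cases i <;> simp [e2]

theorem deh_mul (F G : MvPolynomial (Fin 3) ℂ) : deh (F * G) = deh F * deh G := by
  simp [deh]

theorem deh_ne_zero {D : ℕ} {F : MvPolynomial (Fin 3) ℂ} (hF : F.IsHomogeneous D) (h0 : F ≠ 0) :
    deh F ≠ 0 := by
  rw [deh_eq_rename]
  intro h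
  apply W16.dehomogenize_ne_zero hF h0 2
  apply rename_injective e2 e2.injective
  rw [h, map_zero]

theorem deh_totalDegree_le {D : ℕ} {F : MvPolynomial (Fin 3) ℂ} (hF : F.IsHomogeneous D) :
    (deh F).totalDegree ≤ D := by
  unfold deh
  rw [aeval_def, eval₂_eq']
  refine totalDegree_finsetSum_le fun e he => ?_
  refine (totalDegree_mul _ _).trans ?_
  have h1 : (algebraMap ℂ (MvPolynomial (Fin 2) ℂ) (coeff e F)).totalDegree = 0 :=
    totalDegree_C _
  have h2 : D = ∑ i ∈ e.support, e i := hF.degree_eq_sum_deg_support he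
  have h3 : ∑ i ∈ e.support, e i = ∑ i, e i := by
    refine Finset.sum_subset (Finset.subset_univ _) fun i _ hi => ?_
    simpa using hi
  rw [h3, Fin.sum_univ_three] at h2
  rw [h1, zero_add, Fin.prod_univ_three]
  have h4 : ((![X 0, X 1, 1] : Fin 3 → MvPolynomial (Fin 2) ℂ) 0 ^ e 0 *
      (![X 0, X 1, 1] : Fin 3 → MvPolynomial (Fin 2) ℂ) 1 ^ e 1 *
      (![X 0, X 1, 1] : Fin 3 → MvPolynomial (Fin 2) ℂ) 2 ^ e 2) = X 0 ^ e 0 * X 1 ^ e 1 := by
    simp
  rw [h4]
  refine (totalDegree_mul _ _).trans ?_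
  rw [totalDegree_X_pow, totalDegree_X_pow]
  omega

theorem aff_eq_of_mk_eq {v w : Fin 3 → ℂ} (hv : v ≠ 0) (hw : w ≠ 0)
    (h : Projectivization.mk ℂ v hv = Projectivization.mk ℂ w hw) : aff v = aff w := by
  obtain ⟨a, ha⟩ := (Projectivization.mk_eq_mk_iff' ℂ v w hv hw).mp h
  have ha0 : a ≠ 0 := by
    rintro rfl
    apply hv
    rw [← ha, zero_smul]
  subst ha
  unfold aff
  simp [mul_div_mul_left _ _ ha0]

theorem z_ne_zero_of_mk_eq {v w : Fin 3 → ℂ} (hv : v ≠ 0) (hw : w ≠ 0)
    (h : Projectivization.mk ℂ v hv = Projectivization.mk ℂ w hw) (hz : v 2 ≠ 0) : w 2 ≠ 0 := by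
  obtain ⟨a, ha⟩ := (Projectivization.mk_eq_mk_iff' ℂ v w hv hw).mp h
  intro hw2
  apply hz
  rw [← ha]
  simp [hw2]

theorem order_of_mult {F : MvPolynomial (Fin 3) ℂ} {v : Fin 3 → ℂ} (hv : v ≠ 0) (hz : v 2 ≠ 0) {m : ℕ}
    (h : multiplicityAtLeast F (Projectivization.mk ℂ v hv) m) : orderAtLeast (aff v) m (deh F) := by
  have hrep0 : (Projectivization.mk ℂ v hv).rep ≠ 0 := (Projectivization.mk ℂ v hv).rep_nonzero
  have hmk : Projectivization.mk ℂ v hv =
      Projectivization.mk ℂ (Projectivization.mk ℂ v hv).rep hrep0 :=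
    (Projectivization.mk_rep _).symm
  have hz' : (Projectivization.mk ℂ v hv).rep 2 ≠ 0 := z_ne_zero_of_mk_eq hv hrep0 hmk hz
  have haff : aff v = aff (Projectivization.mk ℂ v hv).rep := aff_eq_of_mk_eq hv hrep0 hmk
  have h2 := h 2 hz'
  have hc : aff v = chartCoordinates 2 (Projectivization.mk ℂ v hv) ∘ e2.symm := by
    rw [haff]
    funext i
    fin_cases i <;> simp [aff, chartCoordinates, e2]
  rw [deh_eq_rename, hc, orderAtLeast_rename]
  exact h2

end Claimed.Agent.R017
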