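import Claimed.Agent.R017.Tri

/-!
# Row 17 chain, file 10: restriction to the curve `y = x^A`.

`theta f = X 1 * pderiv 1 f`   (Euler operator `y d/dy`:  `x^a y^b ↦ b x^a y^b`),
`curveHom A = aeval ![X, X^A] : ℂ[x,y] → ℂ[X]`,
`Gpoly A D c j = ∑_{(a,b) ∈ tri D} C (c (a,b) * b^j) * X^(a + A b)  =  curveHom A (theta^[j] (polyOf D c))`.

PROOF TEXTS.
* `pderiv_mem_pow`: for `I` an ideal and `d = pderiv i` a derivation, `f ∈ I^(m+1) → d f ∈ I^m`.  Induction on `m`.
  `m = 0`: `I^0 = ⊤`.  Step: `I^(m+2) = I * I^(m+1)` (`pow_succ'`), `Submodule.mul_induction_on` (or `Ideal.mul_induction_on`-style):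
  for `a ∈ I`, `b ∈ I^(m+1)`:  `d (a*b) = a * d b + b * d a` (`Derivation.leibniz`, `smul_eq_mul`), `a * d b ∈ I * I^m = I^(m+1)`
  (`Ideal.mul_mem_mul`), `b * d a ∈ I^(m+1)` (`Ideal.mul_mem_right`); sums: `map_add`, `Ideal.add_mem`.
* `theta_order`: cases on `m`; `m = 0` trivial (`pow_zero`, `Ideal.one_eq_top`); `m+1`: `pderiv_mem_pow` + `Ideal.mul_mem_left`.
* `theta_iter_order`: induction on `j` (`Function.iterate_succ_apply'`, `Nat.sub_sub`).
* `theta_polyOf`: `map_sum`, `Derivation.leibniz`/`pderiv_C_mul`, `pderiv_mul`, `pderiv_X_pow`-type simp lemmas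
  (`pderiv_pow`, `pderiv_X`, `Pi.single`); for `b = 0` both sides vanish, for `b = b'+1`: `X 1 * (b * X 1 ^ b') = b * X 1 ^ b`.
* `theta_iter_polyOf`: induction on `j` with `theta_polyOf` (`pow_succ`, `mul_assoc`).
* `curveHom_polyOf`: `map_sum`, `map_mul`, `map_pow`, `aeval_X`, `aeval_C`; `X^a * (X^A)^b = X^(a + A*b)` (`pow_mul`, `pow_add`).
* `curveHom_mem`: `Polynomial.dvd_iff_isRoot`;  `Polynomial.eval l (aeval ![X, X^A] f) = MvPolynomial.eval ![l, l^A] f`
  (both sides are ring homs in `f`: `MvPolynomial.induction_on`, or `Polynomial.eval`∘`aeval` = `aeval` by `MvPolynomial.aeval_unique`/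
  `MvPolynomial.comp_aeval`; check on `X 0`, `X 1` by `fin_cases`).
* `curveHom_mem_pow`: `I ≤ comap (curveHom A) (span {X - C l})`, so `I^m ≤ comap _ (span {..}^m)` (`Ideal.pow_right_mono`,
  `Ideal.le_comap_pow`), `Ideal.span_singleton_pow`, `Ideal.mem_span_singleton`.
* `dvd_Gpoly_of_order`: combine `theta_iter_order`, `theta_iter_polyOf`, `curveHom_polyOf`, `curveHom_mem_pow`.
* `vtheta_dvd`: `(X - 1)^(N+1) ∣ G → (X - 1)^N ∣ X * derivative G`: write `G = (X-1)^(N+1) * H`, `derivative_mul`, `derivative_pow`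
  (or `Polynomial.derivative_X_sub_C_pow`), factor out.
* `vtheta_iter_sum`: `(fun G => X * derivative G)^[i] (∑ s, C (g s) * X^(e s)) = ∑ s, C (g s * (e s)^i) * X^(e s)`: induction on `i`,
  `derivative_sum`, `derivative_C_mul_X_pow`; `e = 0` separately.
* `sum_eq_zero_of_dvd`: by `vtheta_dvd` and induction `(X-1)^(N-i) ∣ vtheta^[i] G`; for `i < N` this gives `eval 1 = 0`
  (`Polynomial.dvd_iff_isRoot` after `dvd_trans (dvd_pow_self _ _)`), and `eval 1` of `vtheta_iter_sum` is `∑ g s * (e s)^i`.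
-/

set_option autoImplicit false

namespace Claimed.Agent.R017

open Claims.C0025 Claims.C0025.Nagata Claims.C0025.Nagata.AffineMultiplicity

/-- Euler operator `y d/dy` -/
noncomputable def theta (f : MvPolynomial (Fin 2) ℂ) : MvPolynomial (Fin 2) ℂ :=
  MvPolynomial.X 1 * MvPolynomial.pderiv 1 f

/-- restriction to the curve `y = x^A` -/
noncomputable def curveHom (A : ℕ) : MvPolynomial (Fin 2) ℂ →ₐ[ℂ] Polynomial ℂ :=
  MvPolynomial.aeval (![Polynomial.X, Polynomial.X ^ A] : Fin 2 → Polynomial ℂ)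

/-- `G_j(c) = ∑ c_ab b^j X^(a + A b)` -/
noncomputable def Gpoly (A D : ℕ) (c : ℕ × ℕ → ℂ) (j : ℕ) : Polynomial ℂ :=
  ∑ ab ∈ tri D, Polynomial.C (c ab * (ab.2 : ℂ) ^ j) * Polynomial.X ^ (ab.1 + A * ab.2)

theorem pderiv_mem_pow {σ : Type*} (I : Ideal (MvPolynomial σ ℂ)) (i : σ) (m : ℕ)
    {f : MvPolynomial σ ℂ} (hf : f ∈ I ^ (m + 1)) : MvPolynomial.pderiv i f ∈ I ^ m := by
  induction m generalizing f with
  | zero => simp
  | succ m ih =>
    rw [pow_succ'] at hf
    refine Submodule.mul_induction_on hf ?_ ?_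
    · intro a ha b hb
      rw [Derivation.leibniz, smul_eq_mul, smul_eq_mul]
      refine Ideal.add_mem _ ?_ ?_
      · rw [pow_succ']
        exact Ideal.mul_mem_mul ha (ih hb)
      · exact Ideal.mul_mem_right _ _ hb
    · intro x y hx hy
      rw [map_add]
      exact Ideal.add_mem _ hx hy

theorem theta_order (a : Fin 2 → ℂ) (m : ℕ) {f : MvPolynomial (Fin 2) ℂ}
    (hf : orderAtLeast a m f) : orderAtLeast a (m - 1) (theta f) := by
  unfold orderAtLeast at hf ⊢
  cases m with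
  | zero => simp
  | succ m =>
    simp only [Nat.add_sub_cancel]
    exact Ideal.mul_mem_left _ _ (pderiv_mem_pow _ _ _ hf)

theorem theta_iter_order (a : Fin 2 → ℂ) (m j : ℕ) {f : MvPolynomial (Fin 2) ℂ}
    (hf : orderAtLeast a m f) : orderAtLeast a (m - j) (theta^[j] f) := by
  induction j with
  | zero => simpa using hf
  | succ j ih =>
    rw [Function.iterate_succ_apply', ← Nat.sub_sub]
    exact theta_order _ _ ih

theorem theta_polyOf (D : ℕ) (c : ℕ × ℕ → ℂ) :
    theta (polyOf D c) = polyOf D (fun ab => c ab * (ab.2 : ℂ)) := by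
  unfold theta polyOf
  rw [map_sum, Finset.mul_sum]
  refine Finset.sum_congr rfl (fun ab _ => ?_)
  obtain ⟨a, b⟩ := ab
  simp only [MvPolynomial.pderiv_C_mul, MvPolynomial.pderiv_mul, MvPolynomial.pderiv_pow,
    MvPolynomial.pderiv_X, Pi.single_apply]
  cases b with
  | zero => simp
  | succ b =>
    simp only [map_mul, map_natCast, Nat.add_sub_cancel]
    simp
    ring

theorem theta_iter_polyOf (D : ℕ) (c : ℕ × ℕ → ℂ) (j : ℕ) :
    theta^[j] (polyOf D c) = polyOf D (fun ab => c ab * (ab.2 : ℂ) ^ j) := by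
  induction j with
  | zero => simp
  | succ j ih =>
    rw [Function.iterate_succ_apply', ih, theta_polyOf]
    congr 1
    funext ab
    rw [pow_succ, mul_assoc]

theorem curveHom_polyOf (A D : ℕ) (c : ℕ × ℕ → ℂ) :
    curveHom A (polyOf D c) =
      ∑ ab ∈ tri D, Polynomial.C (c ab) * Polynomial.X ^ (ab.1 + A * ab.2) := by
  unfold curveHom polyOf
  rw [map_sum]
  refine Finset.sum_congr rfl (fun ab _ => ?_)
  simp only [map_mul, map_pow, MvPolynomial.aeval_X, MvPolynomial.aeval_C]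
  simp only [Matrix.cons_val_zero, Matrix.cons_val_one, ← pow_mul, pow_add]
  rfl

theorem curveHom_mem (A : ℕ) (l : ℂ) {f : MvPolynomial (Fin 2) ℂ}
    (hf : f ∈ pointIdeal (![l, l ^ A] : Fin 2 → ℂ)) :
    (Polynomial.X - Polynomial.C l) ∣ curveHom A f := by
  have key : ∀ g : MvPolynomial (Fin 2) ℂ,
      Polynomial.eval l (curveHom A g) = MvPolynomial.eval (![l, l ^ A] : Fin 2 → ℂ) g := by
    intro g
    unfold curveHom
    induction g using MvPolynomial.induction_on with
    | C a => simp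
    | add p q hp hq => simp only [map_add, Polynomial.eval_add, hp, hq]
    | mul_X p i hp =>
      simp only [map_mul, Polynomial.eval_mul, hp, MvPolynomial.aeval_X, MvPolynomial.eval_X]
      congr 1
      fin_cases i <;> simp
  rw [Polynomial.dvd_iff_isRoot, Polynomial.IsRoot.def, key]
  exact (RingHom.mem_ker).mp hf

theorem curveHom_mem_pow (A : ℕ) (l : ℂ) (m : ℕ) {f : MvPolynomial (Fin 2) ℂ}
    (hf : orderAtLeast (![l, l ^ A] : Fin 2 → ℂ) m f) :
    (Polynomial.X - Polynomial.C l) ^ m ∣ curveHom A f := by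
  unfold orderAtLeast at hf
  have h1 : pointIdeal (![l, l ^ A] : Fin 2 → ℂ) ≤
      Ideal.comap (curveHom A) (Ideal.span {Polynomial.X - Polynomial.C l}) := by
    intro g hg
    rw [Ideal.mem_comap, Ideal.mem_span_singleton]
    exact curveHom_mem A l hg
  have h2 := Ideal.pow_right_mono h1 m hf
  have h3 := Ideal.le_comap_pow (curveHom A) m h2
  rw [Ideal.mem_comap, Ideal.span_singleton_pow, Ideal.mem_span_singleton] at h3
  exact h3

/-- **K3**: order `>= M` at the point `(l, l^A)` of the curve forces `(X - l)^(M-j) ∣ G_j`. -/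
theorem dvd_Gpoly_of_order (A D M : ℕ) (l : ℂ) (c : ℕ × ℕ → ℂ)
    (h : orderAtLeast (![l, l ^ A] : Fin 2 → ℂ) M (polyOf D c)) (j : ℕ) :
    (Polynomial.X - Polynomial.C l) ^ (M - j) ∣ Gpoly A D c j := by
  have h1 := theta_iter_order _ M j h
  rw [theta_iter_polyOf] at h1
  have h2 := curveHom_mem_pow A l (M - j) h1
  rw [curveHom_polyOf] at h2
  exact h2

theorem vtheta_dvd (N : ℕ) {G : Polynomial ℂ}
    (h : (Polynomial.X - Polynomial.C 1) ^ (N + 1) ∣ G) :
    (Polynomial.X - Polynomial.C 1) ^ N ∣ Polynomial.X * Polynomial.derivative G := by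
  obtain ⟨H, rfl⟩ := h
  refine Dvd.dvd.mul_left ?_ _
  rw [Polynomial.derivative_mul, Polynomial.derivative_X_sub_C_pow]
  refine dvd_add ?_ ?_
  · simp only [Nat.add_sub_cancel]
    exact Dvd.dvd.mul_right (Dvd.intro_left _ rfl) _
  · exact Dvd.dvd.mul_right (pow_dvd_pow _ (Nat.le_succ N)) _

theorem vtheta_iter_sum {ι : Type*} (s : Finset ι) (g : ι → ℂ) (e : ι → ℕ) (i : ℕ) :
    (fun G : Polynomial ℂ => Polynomial.X * Polynomial.derivative G)^[i]
        (∑ x ∈ s, Polynomial.C (g x) * Polynomial.X ^ (e x)) =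
      ∑ x ∈ s, Polynomial.C (g x * (e x : ℂ) ^ i) * Polynomial.X ^ (e x) := by
  induction i with
  | zero => simp
  | succ i ih =>
    rw [Function.iterate_succ_apply', ih, Polynomial.derivative_sum, Finset.mul_sum]
    refine Finset.sum_congr rfl ?_
    intro x _
    rw [Polynomial.derivative_C_mul_X_pow]
    rcases Nat.eq_zero_or_pos (e x) with h0 | h0
    · simp [h0]
    · obtain ⟨k, hk⟩ : ∃ k, e x = k + 1 := ⟨e x - 1, by omega⟩
      rw [hk]
      simp only [Nat.add_sub_cancel]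
      rw [pow_succ (((k + 1 : ℕ) : ℂ)) i, pow_succ Polynomial.X k, ← mul_assoc (g x)]
      ring

theorem sum_eq_zero_of_dvd_aux {G : Polynomial ℂ} (N : ℕ)
    (h : (Polynomial.X - Polynomial.C 1) ^ N ∣ G) (i : ℕ) :
    (Polynomial.X - Polynomial.C 1) ^ (N - i) ∣
      (fun G : Polynomial ℂ => Polynomial.X * Polynomial.derivative G)^[i] G := by
  induction i with
  | zero => simpa using h
  | succ i ih =>
    rw [Function.iterate_succ_apply']
    rcases Nat.lt_or_ge i N with hi | hi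
    · have : N - i = (N - (i + 1)) + 1 := by omega
      rw [this] at ih
      exact vtheta_dvd _ ih
    · have : N - (i + 1) = 0 := by omega
      rw [this, pow_zero]
      exact one_dvd _

/-- **K4** -/
theorem sum_eq_zero_of_dvd {ι : Type*} (s : Finset ι) (g : ι → ℂ) (e : ι → ℕ) (N : ℕ)
    (h : (Polynomial.X - Polynomial.C 1) ^ N ∣ ∑ x ∈ s, Polynomial.C (g x) * Polynomial.X ^ (e x))
    (i : ℕ) (hi : i < N) : ∑ x ∈ s, g x * (e x : ℂ) ^ i = 0 := by
  have h1 := sum_eq_zero_of_dvd_aux N h i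
  rw [vtheta_iter_sum] at h1
  have h2 : (Polynomial.X - Polynomial.C 1) ∣
      ∑ x ∈ s, Polynomial.C (g x * (e x : ℂ) ^ i) * Polynomial.X ^ (e x) :=
    dvd_trans (dvd_pow_self _ (by omega)) h1
  rw [Polynomial.dvd_iff_isRoot] at h2
  have h3 := h2
  unfold Polynomial.IsRoot at h3
  rw [Polynomial.eval_finsetSum] at h3
  simpa using h3

end Claimed.Agent.R017
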