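import Claimed.Agent.R017.Defs

/-!
# Row 17 chain, file 3: two facts of linear algebra and the generic point lemma.

PROOF TEXTS.
* `ker_of_det`: `c` is killed by the invertible square matrix `of fun k l => N (R k) l`
  (`Matrix.eq_zero_of_mulVec_eq_zero`).
* `exists_minor` (`ρ` ARBITRARY, possibly infinite).  The rows `N r ∈ κ → K` span `κ → K`: otherwise there is a
  nonzero linear functional on `κ → K` vanishing on the span (`Submodule.exists_le_ker_of_lt_top` or
  `Module.Dual` / `Submodule.exists_dual_map_eq_bot_of_lt_top`), every functional is `x ↦ ∑ x k * c k`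
  (`LinearMap.pi_apply_eq_sum_univ`), so `c ≠ 0` is in the kernel, contradiction with `h`.
  From the spanning family `N : ρ → (κ → K)` extract a basis
  (`exists_linearIndependent`/`Basis.ofSpan`/`Module.Basis.extend`, cardinality `= Fintype.card κ` by `finrank`),
  reindex it by `κ`: `R : κ → ρ` with `LinearIndependent K (fun k => N (R k))`, hence the square matrix has
  linearly independent rows, so it is a unit (`Matrix.linearIndependent_rows_iff_isUnit`) and `det ≠ 0`
  (`Matrix.isUnit_iff_isUnit_det`).   A proved version for finite `ρ` (rank form) is on main in another row: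
  see board/LIBRARY.md `P.exists_minor_of_le_rank`; copy + RENAME if useful, do not import that row.
* `exists_eval_ne_zero_of_countable`: first `ι = Fin N` by induction on `N`.  `N = 0`: `Q = C q`, `q ≠ 0`.
  `N+1`: `finSuccEquiv ℂ N Q` is a nonzero polynomial in one variable over `MvPolynomial (Fin N) ℂ`; take its leading
  coefficient `lc Q ≠ 0`; the set of all `lc Q` is countable, so by induction there is `a` with `eval a (lc Q) ≠ 0`
  for all `Q ∈ S`; then `(finSuccEquiv ℂ N Q).map (eval a)` is a nonzero element of `ℂ[X]`, its root set is finite;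
  the union over `Q ∈ S` is countable and `ℂ` is not (`Cardinal.mk_complex`/`not_countable`), pick `x` outside and use
  `MvPolynomial.eval_eq_eval_mv_eval'` with `Fin.cons x a`.  General finite `ι`: `rename` along `Finite.equivFin`.
-/

set_option autoImplicit false

namespace Claimed.Agent.R017

open MvPolynomial

theorem ker_of_det {K : Type*} [Field K] {ρ κ : Type*} [Fintype κ] [DecidableEq κ]
    (N : ρ → κ → K) (R : κ → ρ) (h : (Matrix.of fun k l => N (R k) l).det ≠ 0)
    (c : κ → K) (hc : ∀ k, ∑ l, N (R k) l * c l = 0) : c = 0 := by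
  apply Matrix.eq_zero_of_mulVec_eq_zero h
  funext k
  simpa [Matrix.mulVec, dotProduct] using hc k

theorem exists_minor {K : Type*} [Field K] {ρ κ : Type*} [Fintype κ] [DecidableEq κ]
    (N : ρ → κ → K) (h : ∀ c : κ → K, (∀ r, ∑ l, N r l * c l = 0) → c = 0) :
    ∃ R : κ → ρ, (Matrix.of fun k l => N (R k) l).det ≠ 0 := by
  classical
  have hspan : Submodule.span K (Set.range N) = ⊤ := by
    by_contra hne
    have hlt : Submodule.span K (Set.range N) < ⊤ := lt_top_iff_ne_top.2 hne
    obtain ⟨f, hf0, hf⟩ := Submodule.exists_le_ker_of_lt_top _ hlt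
    apply hf0
    have hc : (fun l => f (fun j => if l = j then 1 else 0)) = 0 := h _ (fun r => by
      have h1 : f (N r) = 0 := hf (Submodule.subset_span ⟨r, rfl⟩)
      rw [LinearMap.pi_apply_eq_sum_univ] at h1
      simpa [smul_eq_mul] using h1)
    apply LinearMap.ext
    intro x
    rw [LinearMap.pi_apply_eq_sum_univ]
    simp only [LinearMap.zero_apply]
    apply Finset.sum_eq_zero
    intro l _
    have := congrFun hc l
    simp only [Pi.zero_apply] at this
    rw [this, smul_zero]
  obtain ⟨b, hbs, hbspan, hbli⟩ := exists_linearIndependent K (Set.range N)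
  have hbtop : ⊤ ≤ Submodule.span K (Set.range (Subtype.val : b → κ → K)) := by
    rw [Subtype.range_coe, hbspan, hspan]
  let B := Module.Basis.mk hbli hbtop
  have : Fintype b := FiniteDimensional.fintypeBasisIndex B
  have hcard : Fintype.card b = Fintype.card κ := by
    rw [← Module.finrank_eq_card_basis B, Module.finrank_fintype_fun_eq_card]
  let e : κ ≃ b := (Fintype.equivOfCardEq hcard).symm
  have hex : ∀ k, ∃ r, N r = (e k : κ → K) := fun k => hbs (e k).2
  choose R hR using hex
  refine ⟨R, ?_⟩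
  have hli : LinearIndependent K (fun k => N (R k)) := by
    have h1 := hbli.comp e e.injective
    have h2 : (fun k => N (R k)) = Subtype.val ∘ e := by
      funext k; exact hR k
    rw [h2]; exact h1
  have hu : IsUnit (Matrix.of fun k l => N (R k) l) := by
    rw [← Matrix.linearIndependent_rows_iff_isUnit]
    exact hli
  exact ((Matrix.isUnit_iff_isUnit_det _).1 hu).ne_zero

theorem exists_eval_ne_zero_fin (N : ℕ) (S : Set (MvPolynomial (Fin N) ℂ)) (hS : S.Countable)
    (h0 : ∀ Q ∈ S, Q ≠ 0) : ∃ v : Fin N → ℂ, ∀ Q ∈ S, eval v Q ≠ 0 := by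
  induction N with
  | zero =>
    refine ⟨fun i => i.elim0, fun Q hQ hev => h0 Q hQ ?_⟩
    rw [MvPolynomial.eq_C_of_isEmpty Q] at hev ⊢
    rw [eval_C] at hev
    rw [hev, C_0]
  | succ N ih =>
    obtain ⟨a, ha⟩ := ih ((fun Q => (finSuccEquiv ℂ N Q).leadingCoeff) '' S) (hS.image _) (by
      rintro q ⟨Q, hQ, rfl⟩
      rw [Ne, Polynomial.leadingCoeff_eq_zero, EmbeddingLike.map_eq_zero_iff]
      exact h0 Q hQ)
    have hne : ∀ Q ∈ S, ((finSuccEquiv ℂ N Q).map (eval a)) ≠ 0 := by
      intro Q hQ hz
      have h1 := congrArg (fun p => p.coeff (finSuccEquiv ℂ N Q).natDegree) hz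
      simp only [Polynomial.coeff_map, Polynomial.coeff_zero, Polynomial.coeff_natDegree] at h1
      exact ha _ ⟨Q, hQ, rfl⟩ h1
    have hcount : (⋃ Q ∈ S, {x : ℂ | ((finSuccEquiv ℂ N Q).map (eval a)).IsRoot x}).Countable :=
      hS.biUnion fun Q hQ => (Polynomial.finite_setOfPred_isRoot (hne Q hQ)).countable
    obtain ⟨x, hx⟩ : ∃ x : ℂ, x ∉ ⋃ Q ∈ S, {x : ℂ | ((finSuccEquiv ℂ N Q).map (eval a)).IsRoot x} := by
      by_contra hcon
      push Not at hcon
      exact not_countable_complex (hcount.mono fun x _ => hcon x)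
    refine ⟨Fin.cons x a, fun Q hQ hev => hx ?_⟩
    rw [MvPolynomial.eval_eq_eval_mv_eval'] at hev
    exact Set.mem_biUnion hQ hev

theorem exists_eval_ne_zero_of_countable {ι : Type*} [Finite ι] (S : Set (MvPolynomial ι ℂ))
    (hS : S.Countable) (h0 : ∀ Q ∈ S, Q ≠ 0) : ∃ v : ι → ℂ, ∀ Q ∈ S, eval v Q ≠ 0 := by
  obtain ⟨N, ⟨e⟩⟩ := Finite.exists_equiv_fin ι
  obtain ⟨v, hv⟩ := exists_eval_ne_zero_fin N (rename e '' S) (hS.image _) (by
    rintro q ⟨Q, hQ, rfl⟩ hz
    exact h0 Q hQ (rename_injective e e.injective (by rw [hz, map_zero])))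
  refine ⟨v ∘ e, fun Q hQ => ?_⟩
  rw [← eval_rename]
  exact hv _ ⟨Q, hQ, rfl⟩

end Claimed.Agent.R017
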