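import Claimed.Agent.R017.Mat

/-!
# Row 17 chain, file 7: zero loci of single multihomogeneous equations, the countable family, generic configurations.

`loc Q = {p : OrderedDistinctPoints n | equationVanishes Q p.val}`.
`minorEq n D R`, `zEq n` : the equations `minorPoly n D R`, `∏ Z_i`.
`cfg pts h` : the configuration `[x_i : y_i : 1]`.

PROOF TEXTS.
* `loc_closed`: ambient `{pts | equationVanishes Q pts}`, equations `{Q}`; unfold the Prelude definitions.
* `zPoly_mh`: `∏ X (j,2) = monomial (∑ single (j,2) 1) 1`; or weights as in `minorPoly_mh`.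
* `vec_ne_zero`, `cfg`: third coordinate `1 ≠ 0`; injectivity: `aff ![x,y,1] = ![x,y]` and `aff_eq_of_mk_eq`.
* `not_mem_loc_of_eval_ne_zero`: `equationVanishes` quantifies over ALL representatives; plug in `v`.
* `exists_rep_of_not_mem_loc`: negate the definition (`push_neg`).
* `family_countable`: the set is contained in `{zEq n} ∪ ⋃_D range (minorEq n D)`; `↥(tri D) → Fin n × ℕ × ℕ` is countable
  (finite index type, countable values), `Set.countable_range`, `Set.countable_iUnion`, `Set.Countable.mono`.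
* `exists_generic`: apply `exists_eval_ne_zero_of_countable` (index type `Fin n × Fin 3`) to the countable set
  `{Q.polynomial | Q ∈ S} ∪ {X (i,2)} ∪ {X (i,0) * X (j,2) - X (j,0) * X (i,2) | i ≠ j}`.
  `Q.polynomial ≠ 0` because `loc Q ≠ univ` (if the polynomial is `0` every configuration is in `loc Q`).
  The last polynomials are nonzero (evaluate at a suitable 0/1 point, or compare coefficients).  For the resulting `w` put
  `v i c = w (i,c)`; `v i 2 ≠ 0`; `aff (v i) 0 = aff (v j) 0` would give `x_i z_j = x_j z_i`.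
-/

set_option autoImplicit false

namespace Claimed.Agent.R017

open MvPolynomial
open Claims.C0025 Claims.C0025.Nagata Claims.C0025.Nagata.ProjectiveGeometry
open Claims.C0025.Nagata.AffineMultiplicity

/-- zero locus of one equation in the configuration space -/
def loc {n : ℕ} (Q : MultihomogeneousEquation n) : Set (OrderedDistinctPoints n) :=
  {p | equationVanishes Q p.val}

theorem loc_closed {n : ℕ} (Q : MultihomogeneousEquation n) : IsConfigurationZariskiClosed (loc Q) := by
  refine ⟨{pts | equationVanishes Q pts}, ⟨{Q}, fun pts => ?_⟩, fun p => Iff.rfl⟩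
  simp only [Set.mem_singleton_iff, forall_eq]
  exact Iff.rfl

noncomputable def minorEq (n D : ℕ) (R : ↥(tri D) → Fin n × ℕ × ℕ) : MultihomogeneousEquation n where
  polynomial := minorPoly n D R
  multidegree := fun i => 1 + D * (Finset.univ.filter (fun k => (R k).1 = i)).card
  homogeneous := minorPoly_mh n D R

theorem zPoly_mh (n : ℕ) : ∀ e ∈ (∏ j : Fin n, X (j, 2) : PV n).support, ∀ i : Fin n,
    (∑ c : Fin 3, e (i, c)) = 1 := by
  intro e he i
  have h1 : (∏ j : Fin n, X (j, 2) : PV n)
      = monomial (∑ j : Fin n, Finsupp.single ((j, 2) : Fin n × Fin 3) 1) 1 := by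
    rw [monomial_sum_one]
    rfl
  rw [h1] at he
  have h2 := Finset.mem_singleton.mp (support_monomial_subset he)
  subst h2
  simp only [Finsupp.coe_finsetSum, Finset.sum_apply, Finsupp.single_apply, Prod.mk.injEq,
    Fin.sum_univ_three]
  simp

noncomputable def zEq (n : ℕ) : MultihomogeneousEquation n where
  polynomial := ∏ j : Fin n, X (j, 2)
  multidegree := fun _ => 1
  homogeneous := zPoly_mh n

theorem vec_ne_zero (a : Fin 2 → ℂ) : (![a 0, a 1, 1] : Fin 3 → ℂ) ≠ 0 := by
  intro h
  have := congrFun h 2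
  simp at this

theorem aff_vec (a : Fin 2 → ℂ) : aff ![a 0, a 1, 1] = a := by
  funext k
  fin_cases k <;> simp [aff]

/-- the configuration `[x_i : y_i : 1]` -/
noncomputable def cfg {n : ℕ} (pts : Fin n → Fin 2 → ℂ) (h : Function.Injective pts) :
    OrderedDistinctPoints n :=
  ⟨fun i => Projectivization.mk ℂ ![pts i 0, pts i 1, 1] (vec_ne_zero (pts i)), by
    intro i j hij
    apply h
    have := aff_eq_of_mk_eq _ _ hij
    rwa [aff_vec, aff_vec] at this⟩

theorem not_mem_loc_of_eval_ne_zero {n : ℕ} (Q : MultihomogeneousEquation n) (p : OrderedDistinctPoints n)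
    (v : Fin n → Fin 3 → ℂ) (hv : ∀ i, v i ≠ 0) (hp : ∀ i, Projectivization.mk ℂ (v i) (hv i) = p.val i)
    (h : eval (ev v) Q.polynomial ≠ 0) : p ∉ loc Q := by
  intro hmem
  exact h (hmem v hv hp)

theorem exists_rep_of_not_mem_loc {n : ℕ} (Q : MultihomogeneousEquation n) (p : OrderedDistinctPoints n)
    (h : p ∉ loc Q) : ∃ (v : Fin n → Fin 3 → ℂ) (hv : ∀ i, v i ≠ 0),
      (∀ i, Projectivization.mk ℂ (v i) (hv i) = p.val i) ∧ eval (ev v) Q.polynomial ≠ 0 := by
  by_contra hcon
  apply h
  intro v hv hp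
  by_contra hne
  exact hcon ⟨v, hv, hp, hne⟩

/-- the countable family of equations whose loci are the exceptional sets -/
def family (n : ℕ) : Set (MultihomogeneousEquation n) :=
  {Q | loc Q ≠ Set.univ ∧ (Q = zEq n ∨ ∃ (D : ℕ) (R : ↥(tri D) → Fin n × ℕ × ℕ), Q = minorEq n D R)}

theorem family_countable (n : ℕ) : (family n).Countable := by
  have h1 : ({zEq n} ∪ ⋃ D : ℕ, Set.range (minorEq n D) :
      Set (MultihomogeneousEquation n)).Countable := by
    refine (Set.countable_singleton _).union (Set.countable_iUnion (fun D => ?_))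
    exact Set.countable_range _
  refine h1.mono ?_
  rintro Q ⟨_, hQ | ⟨D, R, hQ⟩⟩
  · exact Or.inl hQ
  · exact Or.inr (Set.mem_iUnion.mpr ⟨D, R, hQ.symm⟩)

theorem zEq_mem_family (n : ℕ) : zEq n ∈ family n := by
  refine ⟨?_, Or.inl rfl⟩
  intro huniv
  have hinj : Function.Injective (fun i : Fin n => (![((i : ℕ) : ℂ), 0] : Fin 2 → ℂ)) := by
    intro i j hij
    have h0 := congrFun hij 0
    simp only [Matrix.cons_val_zero] at h0
    exact Fin.ext (by exact_mod_cast h0)
  have hnot : cfg (fun i : Fin n => (![((i : ℕ) : ℂ), 0] : Fin 2 → ℂ)) hinj ∉ loc (zEq n) := by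
    refine not_mem_loc_of_eval_ne_zero (zEq n) _
      (fun i => ![(![((i : ℕ) : ℂ), 0] : Fin 2 → ℂ) 0, (![((i : ℕ) : ℂ), 0] : Fin 2 → ℂ) 1, 1])
      (fun i => vec_ne_zero _) (fun i => rfl) ?_
    simp [zEq, ev]
  exact hnot (huniv ▸ Set.mem_univ _)

theorem exists_generic_cross_ne_zero (n : ℕ) {i j : Fin n} (hij : i ≠ j) :
    (X (i, 0) * X (j, 2) - X (j, 0) * X (i, 2) : PV n) ≠ 0 := by
  classical
  intro h0
  have h1 := congrArg (eval (fun ic : Fin n × Fin 3 =>
    if ic = (i, 0) ∨ ic = (j, 2) then (1 : ℂ) else 0)) h0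
  have hji : j ≠ i := hij.symm
  simp [Prod.ext_iff, hji] at h1

theorem exists_generic (n : ℕ) (S : Set (MultihomogeneousEquation n)) (hS : S.Countable)
    (hne : ∀ Q ∈ S, loc Q ≠ Set.univ) :
    ∃ v : Fin n → Fin 3 → ℂ, (∀ i, v i 2 ≠ 0) ∧ Function.Injective (fun i => aff (v i)) ∧
      ∀ Q ∈ S, eval (ev v) Q.polynomial ≠ 0 := by
  classical
  set S' : Set (PV n) := ((fun Q : MultihomogeneousEquation n => Q.polynomial) '' S ∪
      Set.range (fun i : Fin n => (X (i, 2) : PV n))) ∪
      (fun ij : Fin n × Fin n => (X (ij.1, 0) * X (ij.2, 2) - X (ij.2, 0) * X (ij.1, 2) : PV n)) ''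
        {ij | ij.1 ≠ ij.2} with hS'
  have hc : S'.Countable :=
    ((hS.image _).union (Set.countable_range _)).union ((Set.to_countable _).image _)
  have h0 : ∀ Q ∈ S', Q ≠ 0 := by
    rintro Q ((⟨Q, hQ, rfl⟩ | ⟨i, rfl⟩) | ⟨⟨i, j⟩, hij, rfl⟩)
    · intro hz
      apply hne Q hQ
      ext p
      simp only [loc, Set.mem_ofPred_eq, Set.mem_univ, iff_true]
      intro vectors _ _
      have hz' : Q.polynomial = 0 := hz
      rw [hz', map_zero]
    · exact X_ne_zero _
    · exact exists_generic_cross_ne_zero n hij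
  obtain ⟨w, hw⟩ := exists_eval_ne_zero_of_countable S' hc h0
  refine ⟨fun i c => w (i, c), ?_, ?_, ?_⟩
  · intro i
    have := hw (X (i, 2)) (Or.inl (Or.inr ⟨i, rfl⟩))
    simpa using this
  · intro i j hij
    by_contra hne'
    have h2i : w (i, 2) ≠ 0 := by
      have := hw (X (i, 2)) (Or.inl (Or.inr ⟨i, rfl⟩))
      simpa using this
    have h2j : w (j, 2) ≠ 0 := by
      have := hw (X (j, 2)) (Or.inl (Or.inr ⟨j, rfl⟩))
      simpa using this
    have h3 := hw _ (Or.inr ⟨(i, j), hne', rfl⟩)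
    have h4 := congrFun hij 0
    simp only [aff, Matrix.cons_val_zero] at h4
    rw [div_eq_div_iff h2i h2j] at h4
    apply h3
    simp only [map_sub, map_mul, eval_X]
    rw [h4]; ring
  · intro Q hQ
    have := hw Q.polynomial (Or.inl (Or.inl ⟨Q, hQ, rfl⟩))
    exact this

/-- a configuration outside all the loci of a countable family of proper loci -/
theorem exists_outside (n : ℕ) (S : Set (MultihomogeneousEquation n)) (hS : S.Countable)
    (hne : ∀ Q ∈ S, loc Q ≠ Set.univ) : ∃ p : OrderedDistinctPoints n, ∀ Q ∈ S, p ∉ loc Q := by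
  obtain ⟨v, hv2, hinj, hQ⟩ := exists_generic n S hS hne
  have hv : ∀ i, v i ≠ 0 := fun i h => hv2 i (by rw [h]; rfl)
  refine ⟨⟨fun i => Projectivization.mk ℂ (v i) (hv i), ?_⟩, ?_⟩
  · intro i j hij
    exact hinj (aff_eq_of_mk_eq _ _ hij)
  · intro Q hQS
    exact not_mem_loc_of_eval_ne_zero Q _ v hv (fun i => rfl) (hQ Q hQS)

end Claimed.Agent.R017
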