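import Claimed.Agent.R017.Sym

/-!
# Row 17 chain, file 9: `Key → FullNagata`.

PROOF TEXTS.
* `ineq_of_generic`.  `p ∉ loc (zEq n)` gives representatives `v` with `∏ v i 2 ≠ 0` (`exists_rep_of_not_mem_loc`, `map_prod`,
  `Finset.prod_ne_zero_iff`).  Suppose `degree * sqrt n ≤ ∑ m`.  `f = deh F` shows `HasAff degree m (aff ∘ v)`
  (`deh_ne_zero`, `deh_totalDegree_le`, `order_of_mult` after rewriting `p.val i = mk (v i)`).
  `hgen`: for all `D R`, if `loc (minorEq n D R) ≠ univ` then `minorEq n D R ∈ family n`, so `p ∉` it.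
  Let `(k, pts)` be given by `Key` for `(D', M') = (n * degree, ∑ m)`:   `D' sqrt n = n (degree sqrt n) ≤ n M'`.
  For every permutation `σ`, `pts ∘ σ` is injective, so `HasAff degree m (pts ∘ σ)` by `hasAff_everywhere`;
  `hasAff_sym` and `hasAff_pow` give `HasAff (k * D') (fun _ => k * M') pts`, contradicting `AffEmpty`.
* `fullNagata_of_key`.  `family n` is countable and nonempty: `Set.Countable.exists_eq_range` gives `g : ℕ → _` with
  `family n = range g`; `exceptional k = loc (g k)`; closed by `loc_closed`, proper by the definition of `family`,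
  a point outside all by `exists_outside`, the inequality by `ineq_of_generic`.
-/

set_option autoImplicit false

namespace Claimed.Agent.R017

open MvPolynomial
open Claims.C0025 Claims.C0025.Nagata Claims.C0025.Nagata.ProjectiveGeometry
open Claims.C0025.Nagata.AffineMultiplicity

theorem ineq_of_generic (hkey : Key) {n : ℕ} (hn : 10 ≤ n) (p : OrderedDistinctPoints n)
    (hp : ∀ Q ∈ family n, p ∉ loc Q) (degree : ℕ) (hd : 1 ≤ degree)
    (F : MvPolynomial (Fin 3) ℂ) (hF0 : F ≠ 0) (hF : F.IsHomogeneous degree) (m : Fin n → ℕ)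
    (hm : ∀ i, multiplicityAtLeast F (p.val i) (m i)) :
    (∑ i, (m i : ℝ)) < (degree : ℝ) * Real.sqrt (n : ℝ) := by
  by_contra hcon
  have hcon' : (degree : ℝ) * Real.sqrt (n : ℝ) ≤ ∑ i, (m i : ℝ) := not_lt.mp hcon
  obtain ⟨v, hv, hpv, hev⟩ := exists_rep_of_not_mem_loc (zEq n) p (hp _ (zEq_mem_family n))
  have hz : ∀ i, v i 2 ≠ 0 := by
    have h1 : eval (ev v) (∏ j : Fin n, X (j, 2) : PV n) ≠ 0 := hev
    rw [map_prod] at h1
    intro i
    have h2 := Finset.prod_ne_zero_iff.mp h1 i (Finset.mem_univ i)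
    simpa [ev] using h2
  have hA : HasAff degree m (fun i => aff (v i)) := by
    refine ⟨deh F, deh_ne_zero hF hF0, deh_totalDegree_le hF, fun i => ?_⟩
    apply order_of_mult (hv i) (hz i)
    rw [hpv i]
    exact hm i
  have hgen : ∀ (D : ℕ) (R : ↥(tri D) → Fin n × ℕ × ℕ),
      loc (minorEq n D R) = Set.univ ∨ p ∉ loc (minorEq n D R) := by
    intro D R
    by_cases h : loc (minorEq n D R) = Set.univ
    · exact Or.inl h
    · exact Or.inr (hp _ ⟨h, Or.inr ⟨D, R, rfl⟩⟩)
  have hn0 : 0 < n := by omega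
  have hD1 : 1 ≤ n * degree := Nat.succ_le_of_lt (Nat.mul_pos hn0 (by omega))
  have hbad : ((n * degree : ℕ) : ℝ) * Real.sqrt (n : ℝ) ≤ (n : ℝ) * ((∑ i, m i : ℕ) : ℝ) := by
    push_cast
    have hnn : (0 : ℝ) ≤ (n : ℝ) := Nat.cast_nonneg n
    calc (n : ℝ) * (degree : ℝ) * Real.sqrt (n : ℝ)
        = (n : ℝ) * ((degree : ℝ) * Real.sqrt (n : ℝ)) := by ring
      _ ≤ (n : ℝ) * ∑ i, (m i : ℝ) := mul_le_mul_of_nonneg_left hcon' hnn
  obtain ⟨k, _hk, pts, hinj, hemp⟩ := hkey n hn (n * degree) (∑ i, m i) hD1 hbad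
  have h1 : ∀ σ : Equiv.Perm (Fin n), HasAff degree m (pts ∘ σ) := fun σ =>
    hasAff_everywhere p v hv hpv hgen hA (pts ∘ σ) (hinj.comp σ.injective)
  have h2 := hasAff_sym hn0 pts h1
  have h3 := hasAff_pow pts k h2
  obtain ⟨f, hf0, hfd, hfo⟩ := h3
  exact hf0 (hemp f hfd hfo)

theorem fullNagata_of_key (hkey : Key) : FullNagata := by
  intro n hn
  obtain ⟨g, hg⟩ := (family_countable n).exists_eq_range ⟨zEq n, zEq_mem_family n⟩
  have hmem : ∀ k, g k ∈ family n := fun k => hg ▸ Set.mem_range_self k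
  refine ⟨fun k => loc (g k), fun k => ⟨loc_closed (g k), (hmem k).1⟩, ?_, ?_⟩
  · obtain ⟨p, hp⟩ := exists_outside n (family n) (family_countable n) (fun Q hQ => hQ.1)
    exact ⟨p, fun k => hp _ (hmem k)⟩
  · intro p hp degree hd F hF0 hF m hm
    refine ineq_of_generic hkey hn p ?_ degree hd F hF0 hF m hm
    intro Q hQ
    rw [hg] at hQ
    obtain ⟨k, rfl⟩ := hQ
    exact hp k

end Claimed.Agent.R017
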