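import Claimed.Agent.R017.Semi
import Claimed.Agent.R017.Main1

/-!
# Row 17 chain, file 12: `Crux → Key`, `Crux123 ∧ CruxSq → Crux`, and the conditional theorem `result_of_crux`.

PROOF TEXTS.
* `kerTriv_mono`: more rows, smaller kernel (`fun c hc => h c (fun i j hij => hc i j (hij.trans_le hw))`).
* `Ptau_dvd`: the polynomials `(X - C (1 + t k))^(M-j)`, `k : Fin n`, are pairwise coprime for `t ≠ 0`
  (`Polynomial.pairwise_coprime_X_sub_C` for the injective map `k ↦ 1 + t k`, `IsCoprime.pow`), each divides `G`, so the product does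
  (`Finset.prod_dvd_of_coprime`).
* `affEmpty_of_kerTrivC`: take `t` from `exists_tau`, `pts k = ![1 + t k, (1 + t k)^A]`.  Injective: first coordinates,
  `mul_left_cancel₀`, `Nat.cast_injective`, `Fin.ext`.  `AffEmpty`: `f = polyOf D (coeffsOf f)` (`eq_polyOf`);
  `dvd_Gpoly_of_order` at every point, `Ptau_dvd`, `exists_tau`, `polyOf_eq_zero_iff`.
* `key_of_crux`: unfold; `kerTrivC_of_kerTriv`; `affEmpty_of_kerTrivC` with `(D, M) := (k * D, k * M)`.
* `crux_of_123`.  `n` square: `CruxSq`.  Otherwise `sqrt n` is irrational (`irrational_sqrt_natCast_iff`), so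
  `D sqrt n ≠ n M` (else `sqrt n = n M / D` is rational: `Irrational.ne_nat`/`Irrational.mul_natCast`-type lemmas; e.g.
  `(irr.natCast_mul hD0).ne_nat (n * M)`), hence `D sqrt n < n M`.  Let `A` be given by `Crux123`, `eps = n M / D - sqrt n > 0`,
  `d₀` from `Crux123`, `k = max 1 d₀`, `d = k * D ≥ d₀`.  `(sqrt n + eps) * (k D) = n (k M)` (`field_simp`), so
  `⌈..⌉₊ ≤ n * (k * M)` (`Nat.ceil_le`, `push_cast`) and `kerTriv_mono` applies.
-/

set_option autoImplicit false

namespace Claimed.Agent.R017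

open Claims.C0025 Claims.C0025.Nagata Claims.C0025.Nagata.AffineMultiplicity

theorem kerTriv_mono {n A D w w' : ℕ} (hw : w ≤ w') (h : KerTriv n A D w) : KerTriv n A D w' :=
  fun c hc => h c (fun i j hij => hc i j (hij.trans_le hw))

theorem Ptau_dvd {n M j : ℕ} {t : ℂ} (ht : t ≠ 0) {G : Polynomial ℂ}
    (h : ∀ k : Fin n, (Polynomial.X - Polynomial.C (1 + t * (k.val : ℂ))) ^ (M - j) ∣ G) :
    Ptau n M j t ∣ G := by
  unfold Ptau
  have hinj : Function.Injective (fun k : Fin n => 1 + t * (k.val : ℂ)) := by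
    intro a b hab
    have h1 : t * (a.val : ℂ) = t * (b.val : ℂ) := add_left_cancel hab
    have h2 : (a.val : ℂ) = (b.val : ℂ) := mul_left_cancel₀ ht h1
    exact Fin.ext (Nat.cast_injective h2)
  have hco := Polynomial.pairwise_coprime_X_sub_C hinj
  refine Finset.prod_dvd_of_coprime ?_ (fun k _ => h k)
  intro a _ b _ hab
  exact (hco hab).pow

theorem affEmpty_of_kerTrivC {n A D M : ℕ} (h : KerTrivC n A D (n * M)) :
    ∃ pts : Fin n → Fin 2 → ℂ, Function.Injective pts ∧ AffEmpty n D M pts := by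
  obtain ⟨t, ht, htau⟩ := exists_tau h
  refine ⟨fun k => ![1 + t * (k.val : ℂ), (1 + t * (k.val : ℂ)) ^ A], ?_, ?_⟩
  · intro a b hab
    have h0 : (1 + t * (a.val : ℂ)) = (1 + t * (b.val : ℂ)) := by
      have := congrFun hab 0
      simpa using this
    have h1 : t * (a.val : ℂ) = t * (b.val : ℂ) := add_left_cancel h0
    have h2 : (a.val : ℂ) = (b.val : ℂ) := mul_left_cancel₀ ht h1
    exact Fin.ext (Nat.cast_injective h2)
  · intro f hf hord
    have hfe := eq_polyOf f hf
    rw [hfe, polyOf_eq_zero_iff]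
    apply htau
    intro j
    apply Ptau_dvd ht
    intro k
    apply dvd_Gpoly_of_order A D M
    rw [← hfe]
    exact hord k

theorem key_of_crux (h : Crux) : Key := by
  intro n hn D M hD hDM
  obtain ⟨k, A, hk, hker⟩ := h n hn D M hD hDM
  exact ⟨k, hk, affEmpty_of_kerTrivC (kerTrivC_of_kerTriv hker)⟩

theorem crux_of_123 (h1 : Crux123) (h2 : CruxSq) : Crux := by
  intro n hn D M hD hDM
  by_cases hsq : IsSquare n
  · exact h2 n hn hsq D M hD hDM
  · have irr : Irrational (Real.sqrt (n : ℝ)) := irrational_sqrt_natCast_iff.mpr hsq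
    have hD0 : D ≠ 0 := by omega
    have hDpos : (0 : ℝ) < D := by exact_mod_cast hD
    have hne : (D : ℝ) * Real.sqrt n ≠ (n : ℝ) * M := by
      have := (irr.natCast_mul hD0).ne_nat (n * M)
      intro he
      apply this
      rw [he]
      push_cast
      ring
    have hlt : (D : ℝ) * Real.sqrt n < (n : ℝ) * M := lt_of_le_of_ne hDM hne
    obtain ⟨A, hA⟩ := h1 n hn hsq
    have heps : 0 < (n : ℝ) * M / D - Real.sqrt n := by
      rw [sub_pos, lt_div_iff₀ hDpos]
      linarith
    obtain ⟨d₀, hd₀⟩ := hA _ heps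
    refine ⟨max 1 d₀, A, le_max_left _ _, ?_⟩
    have hd : d₀ ≤ max 1 d₀ * D := by
      calc d₀ ≤ max 1 d₀ := le_max_right _ _
        _ = max 1 d₀ * 1 := (mul_one _).symm
        _ ≤ max 1 d₀ * D := Nat.mul_le_mul_left _ hD
    refine kerTriv_mono ?_ (hd₀ _ hd)
    apply Nat.ceil_le.mpr
    have : (Real.sqrt n + ((n : ℝ) * M / D - Real.sqrt n)) * ((max 1 d₀ * D : ℕ) : ℝ)
        = ((n * (max 1 d₀ * M) : ℕ) : ℝ) := by
      push_cast
      field_simp
      ring
    exact this.le

/-- **The conditional theorem of the chain.** -/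
theorem result_of_crux (h : Crux) : FullNagata :=
  fullNagata_of_key (key_of_crux h)

theorem result_of_crux123 (h1 : Crux123) (h2 : CruxSq) : FullNagata :=
  result_of_crux (crux_of_123 h1 h2)

end Claimed.Agent.R017
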