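import Claimed.Agent.R017.Tri
import Claimed.Agent.R017.Chart
import Claimed.Agent.R017.LinAlg

/-!
# Row 17 chain, file 6: the interpolation matrix, numerically (`entryNum`) and as polynomials in the homogeneous
coordinates of the points (`entryPoly`, `minorPoly`).

Rows `r = (i,a,b)` (point `i`, Taylor exponent `(a,b)`), columns `(p,q) ∈ tri D`.
`entryNum pts r (p,q) = coeff (ex a b) (translateHom (pts i) (X 0 ^ p * X 1 ^ q)) = C(p,a) C(q,b) x_i^(p-a) y_i^(q-b)`.
`entryPoly n D r (p,q) = C(p,a) C(q,b) X_i^(p-a) Y_i^(q-b) Z_i^(D-(p-a)-(q-b))`  (homogeneous of degree `D` in block `i`).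
`minorPoly n D R = (∏_i Z_i) * det (entryPoly (R k) l)_{k,l ∈ tri D}`.

PROOF TEXTS.
* `coeff_translate_mon`: `translateHom a (X 0 ^ p * X 1 ^ q) = (X 0 + C (a 0))^p * (X 1 + C (a 1))^q`; expand both with
  `add_pow`; the product is `∑_{i',j'} monomial (ex i' j') (C(p,i') a0^(p-i') C(q,j') a1^(q-j'))` (`monomial_ex`);
  read off the coefficient with `coeff_sum`, `coeff_monomial`, `ex_inj`; for `i > p` both sides vanish (`Nat.choose_eq_zero_of_lt`).
* `eval_entryPoly`: plug in `coeff_translate_mon` and `aff`; with `z = v i 2 ≠ 0`, `(p-a)+(q-b) ≤ p+q ≤ D`: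
  `z^D (x/z)^(p-a) (y/z)^(q-b) = x^(p-a) y^(q-b) z^(D-(p-a)-(q-b))`  (`div_pow`, `pow_sub₀`/`pow_add`, `field_simp`).
* `minorPoly_mh`: for fixed `i` use the weight `w (j,c) = if j = i then 1 else 0` and `MvPolynomial.IsWeightedHomogeneous`:
  each `entryPoly n D r pq` is weighted homogeneous of weight `if r.1 = i then D else 0` when `pq ∈ tri D` (a monomial, or `0`),
  `Matrix.det_apply` + `IsWeightedHomogeneous.sum/prod/mul` (each term of the Leibniz sum uses every row once, reindex the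
  product by the permutation: `Equiv.prod_comp`/`Finset.sum_equiv`), `∏ Z_j` has weight `1`.
  Finally `Finsupp.weight w e = ∑ c, e (i,c)` (`Finsupp.weight_apply`, `Finsupp.sum_fintype`, `Fintype.sum_prod_type`).
* `eval_minorPoly`: `eval` is a ring hom: `RingHom.map_det` (`map_prod`), then `eval_entryPoly` row by row and
  `Matrix.det_mul_column` (rows scaled by `(v (R k).1 2)^D`).
* `order_polyOf_iff`: `orderAtLeast_iff_coeff`, `eq_ex`, `ex_degree`, linearity of `translateHom` and `coeff`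
  (`map_sum`, `coeff_sum`, `translateHom_C`, `coeff_C_mul`).
* `hasAff_iff_ker`: `f ↔ c` through `eq_polyOf`, `polyOf_eq_zero_iff`, `totalDegree_polyOf_le`, `order_polyOf_iff`;
  sums over `↥(tri D)` versus `∑ ab ∈ tri D`: `Finset.sum_coe_sort`; extend `c : ↥(tri D) → ℂ` by `0`.
-/

set_option autoImplicit false

namespace Claimed.Agent.R017

open MvPolynomial
open Claims.C0025 Claims.C0025.Nagata Claims.C0025.Nagata.ProjectiveGeometry
open Claims.C0025.Nagata.AffineMultiplicity

/-- polynomials in the homogeneous coordinates of `n` points -/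
abbrev PV (n : ℕ) := MvPolynomial (Fin n × Fin 3) ℂ

/-- evaluation point attached to representative vectors -/
def ev {n : ℕ} (v : Fin n → Fin 3 → ℂ) : Fin n × Fin 3 → ℂ := fun ic => v ic.1 ic.2

noncomputable def entryNum {n : ℕ} (pts : Fin n → Fin 2 → ℂ) (r : Fin n × ℕ × ℕ) (pq : ℕ × ℕ) : ℂ :=
  coeff (ex r.2.1 r.2.2) (translateHom (pts r.1) (X 0 ^ pq.1 * X 1 ^ pq.2))

noncomputable def entryPoly (n D : ℕ) (r : Fin n × ℕ × ℕ) (pq : ℕ × ℕ) : PV n :=
  C ((pq.1.choose r.2.1 : ℂ) * (pq.2.choose r.2.2 : ℂ)) * X (r.1, 0) ^ (pq.1 - r.2.1) *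
    X (r.1, 1) ^ (pq.2 - r.2.2) * X (r.1, 2) ^ (D - (pq.1 - r.2.1) - (pq.2 - r.2.2))

noncomputable def minorPoly (n D : ℕ) (R : ↥(tri D) → Fin n × ℕ × ℕ) : PV n :=
  (∏ i : Fin n, X (i, 2)) * (Matrix.of fun k l : ↥(tri D) => entryPoly n D (R k) l.1).det

theorem coeff_translate_mon_expand (a : Fin 2 → ℂ) (p q : ℕ) :
    translateHom a (X 0 ^ p * X 1 ^ q) =
      ∑ i' ∈ Finset.range (p + 1), ∑ j' ∈ Finset.range (q + 1),
        monomial (ex i' j') ((p.choose i' : ℂ) * (q.choose j' : ℂ) * a 0 ^ (p - i') * a 1 ^ (q - j')) := by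
  rw [map_mul, map_pow, map_pow, translateHom_X, translateHom_X, add_pow, add_pow, Finset.sum_mul_sum]
  refine Finset.sum_congr rfl fun i' _ => Finset.sum_congr rfl fun j' _ => ?_
  rw [monomial_ex]
  simp only [map_mul, map_pow, map_natCast]
  ring

theorem coeff_translate_mon (a : Fin 2 → ℂ) (p q i j : ℕ) :
    coeff (ex i j) (translateHom a (X 0 ^ p * X 1 ^ q)) =
      (p.choose i : ℂ) * (q.choose j : ℂ) * a 0 ^ (p - i) * a 1 ^ (q - j) := by
  classical
  rw [coeff_translate_mon_expand, coeff_sum]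
  simp only [coeff_sum, coeff_monomial]
  by_cases hi : i ∈ Finset.range (p + 1)
  · rw [Finset.sum_eq_single i]
    · by_cases hj : j ∈ Finset.range (q + 1)
      · rw [Finset.sum_eq_single j]
        · simp
        · intro j' _ hj'
          rw [if_neg]
          intro h
          exact hj' (ex_inj h).2
        · intro h; exact absurd hj h
      · have hq : q < j := by
          simp only [Finset.mem_range] at hj; omega
        rw [Nat.choose_eq_zero_of_lt hq]
        simp only [Nat.cast_zero, mul_zero, zero_mul]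
        refine Finset.sum_eq_zero fun j' hj' => ?_
        rw [if_neg]
        intro h
        have := (ex_inj h).2
        subst this
        exact hj hj'
    · intro i' _ hi'
      refine Finset.sum_eq_zero fun j' _ => ?_
      rw [if_neg]
      intro h
      exact hi' (ex_inj h).1
    · intro h; exact absurd hi h
  · have hp : p < i := by
      simp only [Finset.mem_range] at hi; omega
    rw [Nat.choose_eq_zero_of_lt hp]
    simp only [Nat.cast_zero, zero_mul]
    refine Finset.sum_eq_zero fun i' hi' => Finset.sum_eq_zero fun j' _ => ?_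
    rw [if_neg]
    intro h
    have := (ex_inj h).1
    subst this
    exact hi hi'

theorem eval_entryPoly {n D : ℕ} (v : Fin n → Fin 3 → ℂ) (r : Fin n × ℕ × ℕ) (pq : ℕ × ℕ)
    (hpq : pq ∈ tri D) (hz : v r.1 2 ≠ 0) :
    eval (ev v) (entryPoly n D r pq) = (v r.1 2) ^ D * entryNum (fun i => aff (v i)) r pq := by
  obtain ⟨i, a, b⟩ := r
  obtain ⟨p, q⟩ := pq
  have hD : p + q ≤ D := mem_tri.mp hpq
  simp only [entryNum, coeff_translate_mon]
  simp only [entryPoly, aff, ev, map_mul, map_pow, eval_C, eval_X]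
  simp only [Matrix.cons_val_zero, Matrix.cons_val_one] at hz ⊢
  generalize hs : p - a = s
  generalize ht : q - b = t
  obtain ⟨u, hu⟩ : ∃ u, D = u + s + t := ⟨D - s - t, by omega⟩
  have hu' : D - s - t = u := by omega
  rw [hu', hu, pow_add, pow_add, div_pow, div_pow]
  field_simp

/-- the 0/1 weight of the block `i` -/
def minorPoly_mh_w {n : ℕ} (i : Fin n) : Fin n × Fin 3 → ℕ := fun jc => if jc.1 = i then 1 else 0

theorem minorPoly_mh_entry (n D : ℕ) (i : Fin n) (r : Fin n × ℕ × ℕ) (pq : ℕ × ℕ) (hpq : pq ∈ tri D) :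
    IsWeightedHomogeneous (minorPoly_mh_w i) (entryPoly n D r pq) (if r.1 = i then D else 0) := by
  have hD : pq.1 + pq.2 ≤ D := mem_tri.1 hpq
  have h0 := isWeightedHomogeneous_C (minorPoly_mh_w i)
    ((pq.1.choose r.2.1 : ℂ) * (pq.2.choose r.2.2 : ℂ))
  have h1 := (isWeightedHomogeneous_X ℂ (minorPoly_mh_w i) (r.1, (0 : Fin 3))).pow (pq.1 - r.2.1)
  have h2 := (isWeightedHomogeneous_X ℂ (minorPoly_mh_w i) (r.1, (1 : Fin 3))).pow (pq.2 - r.2.2)
  have h3 := (isWeightedHomogeneous_X ℂ (minorPoly_mh_w i) (r.1, (2 : Fin 3))).pow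
    (D - (pq.1 - r.2.1) - (pq.2 - r.2.2))
  have h := ((h0.mul h1).mul h2).mul h3
  unfold entryPoly
  convert h using 1
  by_cases hr : r.1 = i
  · simp only [minorPoly_mh_w, hr, if_true, smul_eq_mul, mul_one]
    omega
  · simp only [minorPoly_mh_w, hr, if_false, smul_eq_mul, mul_zero, add_zero]

theorem minorPoly_mh_det (n D : ℕ) (i : Fin n) (R : ↥(tri D) → Fin n × ℕ × ℕ) :
    IsWeightedHomogeneous (minorPoly_mh_w i)
      (Matrix.of fun k l : ↥(tri D) => entryPoly n D (R k) l.1).det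
      (∑ k : ↥(tri D), if (R k).1 = i then D else 0) := by
  rw [Matrix.det_apply']
  refine IsWeightedHomogeneous.sum _ _ _ ?_
  intro σ _
  have hs : IsWeightedHomogeneous (minorPoly_mh_w i)
      (((Equiv.Perm.sign σ : ℤ) : PV n)) 0 := by
    rw [← map_intCast (C : ℂ →+* PV n)]
    exact isWeightedHomogeneous_C _ _
  have hp : IsWeightedHomogeneous (minorPoly_mh_w i)
      (∏ k : ↥(tri D), (Matrix.of fun k l : ↥(tri D) => entryPoly n D (R k) l.1) (σ k) k)
      (∑ k : ↥(tri D), if (R (σ k)).1 = i then D else 0) := by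
    refine IsWeightedHomogeneous.prod _ _ _ ?_
    intro k _
    exact minorPoly_mh_entry n D i (R (σ k)) k.1 k.2
  have h := hs.mul hp
  rw [zero_add, Equiv.sum_comp σ (fun k : ↥(tri D) => if (R k).1 = i then D else 0)] at h
  exact h

theorem minorPoly_mh_Z (n : ℕ) (i : Fin n) :
    IsWeightedHomogeneous (minorPoly_mh_w i) (∏ j : Fin n, (X (j, 2) : PV n)) 1 := by
  have h : IsWeightedHomogeneous (minorPoly_mh_w i) (∏ j : Fin n, (X (j, 2) : PV n))
      (∑ j : Fin n, minorPoly_mh_w i (j, 2)) := by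
    refine IsWeightedHomogeneous.prod _ _ _ ?_
    intro j _
    exact isWeightedHomogeneous_X ℂ _ _
  have e : (∑ j : Fin n, minorPoly_mh_w i (j, 2)) = 1 := by
    simp [minorPoly_mh_w]
  rw [e] at h
  exact h

theorem minorPoly_mh_weight {n : ℕ} (i : Fin n) (e : Fin n × Fin 3 →₀ ℕ) :
    Finsupp.weight (minorPoly_mh_w i) e = ∑ c : Fin 3, e (i, c) := by
  rw [Finsupp.weight_apply, Finsupp.sum_fintype _ _ (fun _ => by simp), Fintype.sum_prod_type]
  rw [Finset.sum_eq_single i]
  · simp [minorPoly_mh_w]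
  · intro j _ hj
    simp [minorPoly_mh_w, hj]
  · intro h
    exact absurd (Finset.mem_univ i) h

theorem minorPoly_mh (n D : ℕ) (R : ↥(tri D) → Fin n × ℕ × ℕ) :
    ∀ e ∈ (minorPoly n D R).support, ∀ i : Fin n,
      (∑ c : Fin 3, e (i, c)) = 1 + D * (Finset.univ.filter (fun k => (R k).1 = i)).card := by
  intro e he i
  have h := (minorPoly_mh_Z n i).mul (minorPoly_mh_det n D i R)
  have hc : coeff e (minorPoly n D R) ≠ 0 := mem_support_iff.1 he
  have hw := h hc
  rw [minorPoly_mh_weight] at hw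
  rw [hw, ← Finset.sum_filter, Finset.sum_const, smul_eq_mul, mul_comm]

theorem eval_minorPoly {n D : ℕ} (R : ↥(tri D) → Fin n × ℕ × ℕ) (v : Fin n → Fin 3 → ℂ)
    (hz : ∀ i, v i 2 ≠ 0) :
    eval (ev v) (minorPoly n D R) =
      (∏ i, v i 2) * ((∏ k, (v (R k).1 2) ^ D) *
        (Matrix.of fun k l : ↥(tri D) => entryNum (fun i => aff (v i)) (R k) l.1).det) := by
  have h1 : eval (ev v) (minorPoly n D R) =
      eval (ev v) (∏ i : Fin n, X (i, 2)) *
        eval (ev v) (Matrix.of fun k l : ↥(tri D) => entryPoly n D (R k) l.1).det := map_mul _ _ _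
  rw [h1, map_prod, RingHom.map_det, ← Matrix.det_mul_column]
  congr 1
  · exact Finset.prod_congr rfl (fun i _ => eval_X _)
  · congr 1
    ext k l
    exact eval_entryPoly v (R k) l.1 l.2 (hz _)

theorem eval_minorPoly_of_z_eq_zero {n D : ℕ} (R : ↥(tri D) → Fin n × ℕ × ℕ) (v : Fin n → Fin 3 → ℂ)
    (i : Fin n) (hz : v i 2 = 0) : eval (ev v) (minorPoly n D R) = 0 := by
  have h1 : eval (ev v) (minorPoly n D R) =
      eval (ev v) (∏ i : Fin n, X (i, 2)) *
        eval (ev v) (Matrix.of fun k l : ↥(tri D) => entryPoly n D (R k) l.1).det := map_mul _ _ _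
  have h2 : eval (ev v) (∏ i : Fin n, (X (i, 2) : PV n)) = 0 := by
    rw [map_prod]
    refine Finset.prod_eq_zero (Finset.mem_univ i) ?_
    rw [eval_X]
    exact hz
  rw [h1, h2, zero_mul]

theorem order_polyOf_iff {n : ℕ} (pts : Fin n → Fin 2 → ℂ) (D : ℕ) (c : ℕ × ℕ → ℂ) (i : Fin n) (m : ℕ) :
    orderAtLeast (pts i) m (polyOf D c) ↔
      ∀ a b : ℕ, a + b < m → ∑ pq ∈ tri D, entryNum pts (i, a, b) pq * c pq = 0 := by
  have key : ∀ a b : ℕ, coeff (ex a b) (translateHom (pts i) (polyOf D c)) =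
      ∑ pq ∈ tri D, entryNum pts (i, a, b) pq * c pq := by
    intro a b
    unfold polyOf entryNum
    rw [map_sum, coeff_sum]
    refine Finset.sum_congr rfl fun pq _ => ?_
    rw [map_mul, translateHom_C, coeff_C_mul, mul_comm]
  rw [orderAtLeast_iff_coeff]
  constructor
  · intro h a b hab
    rw [← key]
    exact h _ (by rw [ex_degree]; exact hab)
  · intro h e he
    rw [eq_ex e] at he ⊢
    rw [key]
    exact h _ _ (by rw [ex_degree] at he; exact he)

theorem hasAff_iff_ker {n : ℕ} (D : ℕ) (m : Fin n → ℕ) (pts : Fin n → Fin 2 → ℂ) :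
    HasAff D m pts ↔ ∃ c : ↥(tri D) → ℂ, c ≠ 0 ∧
      ∀ r : Fin n × ℕ × ℕ, r.2.1 + r.2.2 < m r.1 → ∑ l, entryNum pts r l.1 * c l = 0 := by
  classical
  constructor
  · rintro ⟨f, hf0, hfD, hord⟩
    refine ⟨fun l => coeffsOf f l.1, ?_, ?_⟩
    · intro hc
      apply hf0
      rw [eq_polyOf f hfD, polyOf_eq_zero_iff]
      intro ab hab
      exact congrFun hc ⟨ab, hab⟩
    · rintro ⟨i, a, b⟩ hr
      have h := hord i
      rw [eq_polyOf f hfD, order_polyOf_iff] at h
      have h2 := h a b hr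
      rw [← Finset.sum_coe_sort] at h2
      exact h2
  · rintro ⟨c, hc0, hker⟩
    set c' : ℕ × ℕ → ℂ := fun ab => if h : ab ∈ tri D then c ⟨ab, h⟩ else 0 with hc'
    have hcc : ∀ l : ↥(tri D), c' l.1 = c l := by
      intro l
      simp [hc', l.2]
    refine ⟨polyOf D c', ?_, totalDegree_polyOf_le D c', ?_⟩
    · intro h0
      rw [polyOf_eq_zero_iff] at h0
      apply hc0
      funext l
      rw [← hcc l]
      exact h0 l.1 l.2
    · intro i
      rw [order_polyOf_iff]
      intro a b hab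
      rw [← Finset.sum_coe_sort]
      have := hker (i, a, b) hab
      simpa [hcc] using this

end Claimed.Agent.R017
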