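import Claimed.Agent.R017.Defs

/-!
# Row 17 chain, file 2: calculus of `orderAtLeast` (= membership in a power of the ideal of a point).

`orderAtLeast a m f  :=  f ∈ pointIdeal a ^ m`,  `pointIdeal a = ker (eval a)`  (Prelude Def_0025).

PROOF TEXTS.
* `orderAtLeast_iff_coeff`: `translateEquiv a` (Prelude) is a ring automorphism with
  `eval 0 ∘ translateHom a = eval a`, so it maps `pointIdeal a` onto `pointIdeal 0 = ker (eval 0)`, and
  `ker (eval 0) = idealOfVars` (use `MvPolynomial.mem_pow_idealOfVars_iff'` with `n = 1`: the only exponent of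
  degree `< 1` is `0`, and `coeff 0 p = eval 0 p = constantCoeff p`).  Hence
  `f ∈ pointIdeal a ^ m ↔ translateHom a f ∈ idealOfVars ^ m` (`Ideal.map_pow`, `Ideal.map` along a ring equiv /
  `Ideal.mem_map_of_equiv`, or `Ideal.comap` ), then `MvPolynomial.mem_pow_idealOfVars_iff'`.
* `orderAtLeast_mul`: `Ideal.mul_mem_mul` + `pow_add`.  `_pow`, `_prod`: induction.  `_mono`: `Ideal.pow_le_pow_right`.
* `orderAtLeast_rename`: `renameEquiv ℂ e` is a ring equiv carrying `pointIdeal a` onto `pointIdeal (a ∘ e.symm)`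
  (`eval_rename`), so it carries the powers onto each other.
-/

set_option autoImplicit false

namespace Claimed.Agent.R017

open MvPolynomial
open Claims.C0025 Claims.C0025.Nagata Claims.C0025.Nagata.ProjectiveGeometry
open Claims.C0025.Nagata.AffineMultiplicity

variable {σ τ ι : Type*}

theorem orderAtLeast_iff_coeff_vars (p : MvPolynomial σ ℂ) :
    p ∈ idealOfVars σ ℂ ↔ eval (0 : σ → ℂ) p = 0 := by
  have h1 : p ∈ idealOfVars σ ℂ ↔ p ∈ idealOfVars σ ℂ ^ 1 := by rw [pow_one]
  rw [h1, mem_pow_idealOfVars_iff', eval_zero, constantCoeff_eq]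
  constructor
  · intro h
    exact h 0 (by simp)
  · intro h x hx
    have hx0 : x = 0 := by
      have : x.degree = 0 := by omega
      exact (Finsupp.degree_eq_zero_iff x).mp this
    rw [hx0]; exact h

theorem orderAtLeast_iff_coeff_eval (a : σ → ℂ) (f : MvPolynomial σ ℂ) :
    eval (0 : σ → ℂ) (translateHom a f) = eval a f := by
  have : (eval (0 : σ → ℂ)).comp (translateHom a) = eval a := by
    apply MvPolynomial.ringHom_ext
    · intro c; simp
    · intro i; simp
  exact RingHom.congr_fun this f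

theorem orderAtLeast_iff_coeff_map (a : σ → ℂ) :
    (pointIdeal a).map (translateEquiv a : MvPolynomial σ ℂ ≃+* MvPolynomial σ ℂ)
      = idealOfVars σ ℂ := by
  ext g
  rw [Ideal.mem_map_of_equiv]
  constructor
  · rintro ⟨f, hf, rfl⟩
    rw [orderAtLeast_iff_coeff_vars, translateEquiv_apply, orderAtLeast_iff_coeff_eval]
    exact hf
  · intro hg
    refine ⟨(translateEquiv a).symm g, ?_, by simp⟩
    show eval a ((translateEquiv a).symm g) = 0
    rw [← orderAtLeast_iff_coeff_eval, ← translateEquiv_apply, RingEquiv.apply_symm_apply]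
    exact (orderAtLeast_iff_coeff_vars g).1 hg

theorem orderAtLeast_iff_coeff (a : σ → ℂ) (m : ℕ) (f : MvPolynomial σ ℂ) :
    orderAtLeast a m f ↔ ∀ e : σ →₀ ℕ, e.degree < m → coeff e (translateHom a f) = 0 := by
  unfold orderAtLeast
  rw [← mem_pow_idealOfVars_iff', ← orderAtLeast_iff_coeff_map a, ← Ideal.map_pow,
    Ideal.mem_map_of_equiv]
  constructor
  · intro h
    exact ⟨f, h, rfl⟩
  · rintro ⟨g, hg, h⟩
    have : g = f := (translateEquiv a).injective h
    exact this ▸ hg

theorem orderAtLeast_mul (a : σ → ℂ) {m m' : ℕ} {f g : MvPolynomial σ ℂ}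
    (hf : orderAtLeast a m f) (hg : orderAtLeast a m' g) : orderAtLeast a (m + m') (f * g) := by
  show f * g ∈ pointIdeal a ^ (m + m')
  rw [pow_add]
  exact Ideal.mul_mem_mul hf hg

theorem orderAtLeast_mono (a : σ → ℂ) {m m' : ℕ} {f : MvPolynomial σ ℂ} (h : m' ≤ m)
    (hf : orderAtLeast a m f) : orderAtLeast a m' f :=
  Ideal.pow_le_pow_right h hf

theorem orderAtLeast_pow (a : σ → ℂ) {m : ℕ} {f : MvPolynomial σ ℂ} (k : ℕ)
    (hf : orderAtLeast a m f) : orderAtLeast a (k * m) (f ^ k) := by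
  show f ^ k ∈ pointIdeal a ^ (k * m)
  rw [mul_comm, pow_mul]
  exact Ideal.pow_mem_pow hf k

theorem orderAtLeast_prod (a : σ → ℂ) (s : Finset ι) (m : ι → ℕ) (f : ι → MvPolynomial σ ℂ)
    (hf : ∀ i ∈ s, orderAtLeast a (m i) (f i)) :
    orderAtLeast a (∑ i ∈ s, m i) (∏ i ∈ s, f i) := by
  classical
  induction s using Finset.induction_on with
  | empty =>
    show (∏ i ∈ (∅ : Finset ι), f i) ∈ pointIdeal a ^ (∑ i ∈ (∅ : Finset ι), m i)
    simp
  | insert i s hi ih =>
    rw [Finset.sum_insert hi, Finset.prod_insert hi]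
    exact orderAtLeast_mul a (hf i (Finset.mem_insert_self i s))
      (ih (fun j hj => hf j (Finset.mem_insert_of_mem hj)))

theorem orderAtLeast_rename_pointIdeal (e : σ ≃ τ) (a : σ → ℂ) :
    (pointIdeal a).map ((renameEquiv ℂ e : MvPolynomial σ ℂ ≃ₐ[ℂ] MvPolynomial τ ℂ) : MvPolynomial σ ℂ ≃+* MvPolynomial τ ℂ)
      = pointIdeal (a ∘ e.symm) := by
  ext g
  rw [Ideal.mem_map_of_equiv]
  constructor
  · rintro ⟨f, hf, rfl⟩
    simp only [pointIdeal, RingHom.mem_ker] at hf ⊢
    have : eval (a ∘ e.symm) (rename e f) = eval a f := by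
      rw [eval_rename]
      have h2 : (a ∘ e.symm) ∘ e = a := by
        funext i
        simp
      rw [h2]
    simpa using this.trans hf
  · intro hg
    refine ⟨rename e.symm g, ?_, ?_⟩
    · simp only [pointIdeal, RingHom.mem_ker] at hg ⊢
      rw [eval_rename]
      exact hg
    · simp [rename_rename]

theorem orderAtLeast_rename (e : σ ≃ τ) (a : σ → ℂ) (m : ℕ) (f : MvPolynomial σ ℂ) :
    orderAtLeast (a ∘ e.symm) m (rename e f) ↔ orderAtLeast a m f := by
  unfold orderAtLeast
  rw [← orderAtLeast_rename_pointIdeal e a, ← Ideal.map_pow, Ideal.mem_map_of_equiv]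
  constructor
  · rintro ⟨g, hg, h⟩
    have : g = f := by
      apply rename_injective e e.injective
      simpa using h
    exact this ▸ hg
  · intro h
    exact ⟨f, h, by simp⟩

end Claimed.Agent.R017
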