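import Claimed.Agent.R017.Curve
import Claimed.Agent.R017.LinAlg

/-!
# Row 17 chain, file 11: from `ℚ` to `ℂ`, and semicontinuity (`tau = 0` to some `tau ≠ 0`).

`Ptau n M j t = ∏_{k : Fin n} (X - C (1 + t k))^(M - j) ∈ ℂ[X]`          (monic; at `t = 0` it is `(X-1)^(n (M-j))`),
`PT n M j    = ∏_{k : Fin n} (X - C (1 + T * C k))^(M - j) ∈ ℂ[T][X]`     (the same with `t` an indeterminate `T`),
`Nent n A M (j,i) (a,b) = C (b^j) * coeff_i (X^(a + A b) %ₘ PT n M j) ∈ ℂ[T]`.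

PROOF TEXTS.
* `kerTrivC_of_kerTriv`.  Row type `ρ = {r : ℕ × ℕ // r.1 + n * r.2 < w}`, column type `↥(tri D)`,
  `N r l = ((l.1.1 + A * l.1.2 : ℕ) : ℚ)^r.1.1 * (l.1.2 : ℚ)^r.1.2`.  `KerTriv` says the kernel of `N` is trivial (extend
  `c : ↥(tri D) → ℚ` by zero, `Finset.sum_coe_sort`/`Finset.sum_attach`), so `exists_minor` gives `R` with `det ≠ 0` over `ℚ`.
  Apply the ring hom `algebraMap ℚ ℂ` (`RingHom.map_det`, `Matrix.map`, injectivity: `map_ne_zero`/`Rat.cast_ne_zero`); the image matrix is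
  the same formula over `ℂ` (`push_cast`).  `ker_of_det` over `ℂ` finishes.
* `semi` (abstract semicontinuity).  `exists_minor` for `fun r l => (N r l).eval 0` gives `R`; let
  `d = (Matrix.of fun k l => N (R k) l).det ∈ ℂ[T]`;  `d.eval t = det (eval t entries)` (`RingHom.map_det (Polynomial.evalRingHom t)`),
  so `d.eval 0 ≠ 0`, `d ≠ 0`, `X * d ≠ 0`; a nonzero polynomial over the infinite field `ℂ` has a non-root
  (`Polynomial.exists_eval_ne_zero_of_natDegree_lt_card`-type, or `Polynomial.funext`/`Polynomial.eq_zero_of_infinite_isRoot`):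
  `t` with `t * d.eval t ≠ 0`.  `ker_of_det` at this `t`.
* `Ptau_monic`, `PT_monic`: `Polynomial.monic_prod_of_monic`, `Monic.pow`, `monic_X_sub_C`.
* `map_PT`: `Polynomial.map_prod`, `map_pow`, `map_sub`, `map_X`, `map_C`, `eval_add`, `eval_mul`, ...
* `Ptau_zero`: `Finset.prod_const`, `Finset.card_univ`, `Fintype.card_fin`, `← pow_mul` (mind the order `n * (M-j)`).
* `eval_Nent_sum`: `Polynomial.map_modByMonic` (with `PT_monic`) and `map_PT` give
  `(Nent n A M (j,i) (a,b)).eval t = b^j * coeff_i (X^(a+A b) %ₘ Ptau n M j t)` (`Polynomial.coeff_map`);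
  `%ₘ` is `ℂ`-linear: `Polynomial.modByMonicHom` (`map_sum`, `map_smul`, `Polynomial.C_mul'`/`smul_eq_C_mul`), `Polynomial.finset_sum_coeff`.
* `exists_tau`.  Apply `semi` with `ρ = ℕ × ℕ`, `κ = ↥(tri D)`, `N r l = Nent n A M r l.1`.  Kernel at `0`: if
  `∑_l (N r l).eval 0 * c l = 0` for all `r = (j,i)` then by `eval_Nent_sum` all coefficients of `Gpoly A D c j %ₘ Ptau n M j 0` vanish, so
  `(X-1)^(n (M-j)) ∣ Gpoly A D c j` (`Polynomial.modByMonic_eq_zero_iff_dvd`, `Ptau_zero`), so by `sum_eq_zero_of_dvd`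
  `∑ c_ab b^j (a + A b)^i = 0` for `i < n (M-j)`, in particular whenever `i + n j < n M`; `KerTrivC` gives `c = 0`.
  Conversely at `tau`: `Ptau n M j tau ∣ Gpoly A D c j` for all `j` gives `%ₘ = 0`, all coefficients `0`, so `c` is in the kernel at `tau`.
  (Functions on `ℕ × ℕ` versus on `↥(tri D)`: restrict / extend by zero; `Gpoly` only sees the values on `tri D`: `Finset.sum_congr`.)
-/

set_option autoImplicit false

namespace Claimed.Agent.R017

open Polynomial

/-- **K1** -/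
theorem kerTrivC_of_kerTriv {n A D w : ℕ} (h : KerTriv n A D w) : KerTrivC n A D w := by
  classical
  let NQ : {r : ℕ × ℕ // r.1 + n * r.2 < w} → ↥(tri D) → ℚ :=
    fun r l => ((l.1.1 + A * l.1.2 : ℕ) : ℚ) ^ r.1.1 * (l.1.2 : ℚ) ^ r.1.2
  let NC : {r : ℕ × ℕ // r.1 + n * r.2 < w} → ↥(tri D) → ℂ :=
    fun r l => ((l.1.1 + A * l.1.2 : ℕ) : ℂ) ^ r.1.1 * (l.1.2 : ℂ) ^ r.1.2
  have hker : ∀ c : ↥(tri D) → ℚ, (∀ r, ∑ l, NQ r l * c l = 0) → c = 0 := by
    intro c hc
    have h1 := h (fun ab => if hab : ab ∈ tri D then c ⟨ab, hab⟩ else 0) ?_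
    · funext l
      have h2 := h1 l.1 l.2
      simpa using h2
    · intro i j hij
      have h3 := hc ⟨(i, j), hij⟩
      rw [← Finset.sum_coe_sort]
      rw [← h3]
      refine Finset.sum_congr rfl ?_
      intro l _
      simp only [NQ, l.2, dif_pos, Subtype.coe_eta]
      ring
  obtain ⟨R, hR⟩ := exists_minor NQ hker
  have hdet : (Matrix.of fun k l => NC (R k) l).det ≠ 0 := by
    have hmap : (Matrix.of fun k l => NC (R k) l)
        = (algebraMap ℚ ℂ).mapMatrix (Matrix.of fun k l => NQ (R k) l) := by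
      ext k l
      simp [NC, NQ]
    rw [hmap, ← RingHom.map_det]
    simpa using hR
  intro c hc
  have h4 := ker_of_det NC R hdet (fun l => c l.1) ?_
  · intro ab hab
    exact congrFun h4 ⟨ab, hab⟩
  · intro k
    have h5 := hc (R k).1.1 (R k).1.2 (R k).2
    rw [← Finset.sum_coe_sort] at h5
    rw [← h5]
    refine Finset.sum_congr rfl ?_
    intro l _
    simp only [NC]
    ring

/-- abstract semicontinuity of "trivial kernel" in a polynomial family of matrices -/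
theorem semi {ρ κ : Type*} [Fintype κ] [DecidableEq κ] (N : ρ → κ → ℂ[X])
    (h : ∀ c : κ → ℂ, (∀ r, ∑ l, (N r l).eval 0 * c l = 0) → c = 0) :
    ∃ t : ℂ, t ≠ 0 ∧ ∀ c : κ → ℂ, (∀ r, ∑ l, (N r l).eval t * c l = 0) → c = 0 := by
  obtain ⟨R, hR⟩ := exists_minor (fun r l => (N r l).eval 0) h
  set d : ℂ[X] := (Matrix.of fun k l => N (R k) l).det with hd
  have hev : ∀ t : ℂ, d.eval t = (Matrix.of fun k l => (N (R k) l).eval t).det := by
    intro t
    have := RingHom.map_det (Polynomial.evalRingHom t) (Matrix.of fun k l => N (R k) l)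
    rw [Polynomial.coe_evalRingHom] at this
    rw [hd, this]
    congr 1
  have hd0 : d ≠ 0 := by
    intro h0
    apply hR
    rw [← hev 0, h0, Polynomial.eval_zero]
  have hXd : (X * d : ℂ[X]) ≠ 0 := mul_ne_zero Polynomial.X_ne_zero hd0
  obtain ⟨t, ht⟩ : ∃ t : ℂ, (X * d : ℂ[X]).eval t ≠ 0 := by
    by_contra hcon
    push Not at hcon
    exact hXd (Polynomial.funext (fun t => by rw [hcon t, Polynomial.eval_zero]))
  rw [Polynomial.eval_mul, Polynomial.eval_X] at ht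
  refine ⟨t, left_ne_zero_of_mul ht, ?_⟩
  intro c hc
  refine ker_of_det (fun r l => (N r l).eval t) R ?_ c (fun k => hc (R k))
  rw [← hev t]
  exact right_ne_zero_of_mul ht

noncomputable def Ptau (n M j : ℕ) (t : ℂ) : ℂ[X] :=
  ∏ k : Fin n, (X - C (1 + t * (k.val : ℂ))) ^ (M - j)

noncomputable def PT (n M j : ℕ) : ℂ[X][X] :=
  ∏ k : Fin n, (X - C (1 + X * C (k.val : ℂ))) ^ (M - j)

noncomputable def Nent (n A M : ℕ) (r : ℕ × ℕ) (ab : ℕ × ℕ) : ℂ[X] :=
  C ((ab.2 : ℂ) ^ r.1) * ((X ^ (ab.1 + A * ab.2) : ℂ[X][X]) %ₘ PT n M r.1).coeff r.2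

theorem Ptau_monic (n M j : ℕ) (t : ℂ) : (Ptau n M j t).Monic := by
  unfold Ptau
  exact monic_prod_of_monic _ _ (fun k _ => (monic_X_sub_C _).pow _)

theorem PT_monic (n M j : ℕ) : (PT n M j).Monic := by
  unfold PT
  exact monic_prod_of_monic _ _ (fun k _ => (monic_X_sub_C _).pow _)

theorem map_PT (n M j : ℕ) (t : ℂ) : (PT n M j).map (evalRingHom t) = Ptau n M j t := by
  unfold PT Ptau
  rw [Polynomial.map_prod]
  refine Finset.prod_congr rfl (fun k _ => ?_)
  simp [Polynomial.map_pow, Polynomial.map_sub]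

theorem Ptau_zero (n M j : ℕ) : Ptau n M j 0 = (X - C 1) ^ (n * (M - j)) := by
  unfold Ptau
  simp only [zero_mul, add_zero, Finset.prod_const, Finset.card_univ, Fintype.card_fin]
  rw [← pow_mul, Nat.mul_comm]

theorem eval_Nent (n A M : ℕ) (t : ℂ) (j i : ℕ) (ab : ℕ × ℕ) :
    (Nent n A M (j, i) ab).eval t =
      (ab.2 : ℂ) ^ j * ((X ^ (ab.1 + A * ab.2) : ℂ[X]) %ₘ Ptau n M j t).coeff i := by
  unfold Nent
  rw [eval_mul, eval_C, ← map_PT n M j t]
  congr 1
  have h := Polynomial.map_modByMonic (f := evalRingHom t)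
    (p := (X ^ (ab.1 + A * ab.2) : ℂ[X][X])) (PT_monic n M j)
  rw [Polynomial.map_pow, Polynomial.map_X] at h
  rw [← h, Polynomial.coeff_map]
  rfl

theorem eval_Nent_sum (n A D M : ℕ) (t : ℂ) (c : ℕ × ℕ → ℂ) (j i : ℕ) :
    ∑ ab ∈ tri D, (Nent n A M (j, i) ab).eval t * c ab = (Gpoly A D c j %ₘ Ptau n M j t).coeff i := by
  have hlin : Gpoly A D c j %ₘ Ptau n M j t
      = ∑ ab ∈ tri D, C (c ab * (ab.2 : ℂ) ^ j) * ((X ^ (ab.1 + A * ab.2) : ℂ[X]) %ₘ Ptau n M j t) := by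
    have h1 : Gpoly A D c j %ₘ Ptau n M j t = Polynomial.modByMonicHom (Ptau n M j t) (Gpoly A D c j) := rfl
    rw [h1, Gpoly, map_sum]
    refine Finset.sum_congr rfl ?_
    intro ab _
    rw [← smul_eq_C_mul, map_smul, smul_eq_C_mul]
    rfl
  rw [hlin, Polynomial.finsetSum_coeff]
  refine Finset.sum_congr rfl ?_
  intro ab _
  rw [eval_Nent, Polynomial.coeff_C_mul]
  ring

/-- **K2** -/
theorem exists_tau {n A D M : ℕ} (h : KerTrivC n A D (n * M)) :
    ∃ t : ℂ, t ≠ 0 ∧ ∀ c : ℕ × ℕ → ℂ, (∀ j, Ptau n M j t ∣ Gpoly A D c j) → ∀ ab ∈ tri D, c ab = 0 := by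
  classical
  obtain ⟨t, ht0, ht⟩ := semi (ρ := ℕ × ℕ) (κ := ↥(tri D)) (fun r l => Nent n A M r l.1) (by
    intro c hc
    have hsum : ∀ r : ℕ × ℕ,
        ∑ ab ∈ tri D, (Nent n A M r ab).eval 0 *
            (if hab : ab ∈ tri D then c ⟨ab, hab⟩ else 0) = 0 := by
      intro r
      rw [← Finset.sum_coe_sort (tri D) (fun ab => (Nent n A M r ab).eval 0 *
            (if hab : ab ∈ tri D then c ⟨ab, hab⟩ else 0))]
      refine Eq.trans (Finset.sum_congr rfl (fun l _ => ?_)) (hc r)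
      rw [dif_pos l.2]
    have key := h (fun ab => if hab : ab ∈ tri D then c ⟨ab, hab⟩ else 0) (by
      intro i j hij
      have hmod : Gpoly A D (fun ab => if hab : ab ∈ tri D then c ⟨ab, hab⟩ else 0) j %ₘ
          Ptau n M j 0 = 0 := by
        ext k
        rw [← eval_Nent_sum, hsum (j, k), Polynomial.coeff_zero]
      have hdvd : (X - C 1) ^ (n * (M - j)) ∣
          Gpoly A D (fun ab => if hab : ab ∈ tri D then c ⟨ab, hab⟩ else 0) j := by
        rw [← Ptau_zero]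
        exact (Polynomial.modByMonic_eq_zero_iff_dvd (Ptau_monic n M j 0)).1 hmod
      have hi : i < n * (M - j) := by
        rw [Nat.mul_sub]
        omega
      have h0 := sum_eq_zero_of_dvd (tri D)
        (fun ab => (if hab : ab ∈ tri D then c ⟨ab, hab⟩ else 0) * (ab.2 : ℂ) ^ j)
        (fun ab => ab.1 + A * ab.2) (n * (M - j)) hdvd i hi
      refine Eq.trans (Finset.sum_congr rfl (fun ab _ => ?_)) h0
      ring)
    funext l
    have hl := key l.1 l.2
    rw [dif_pos l.2] at hl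
    exact hl)
  refine ⟨t, ht0, fun c hc ab hab => ?_⟩
  have hker := ht (fun l => c l.1) (by
    rintro ⟨j, i⟩
    have h1 : ∑ l : ↥(tri D), (Nent n A M (j, i) l.1).eval t * c l.1 =
        ∑ ab ∈ tri D, (Nent n A M (j, i) ab).eval t * c ab :=
      Finset.sum_coe_sort (tri D) (fun ab => (Nent n A M (j, i) ab).eval t * c ab)
    rw [h1, eval_Nent_sum,
      (Polynomial.modByMonic_eq_zero_iff_dvd (Ptau_monic n M j t)).2 (hc j), Polynomial.coeff_zero])
  exact congrFun hker ⟨ab, hab⟩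

end Claimed.Agent.R017
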