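import Claimed.Agent.R017.Locus

/-!
# Row 17 chain, file 8: propagation of forms from a generic configuration, symmetrisation, powers.

PROOF TEXTS.
* `hasAff_everywhere`.  Suppose `¬ HasAff D m q`.  By `hasAff_iff_ker` the matrix `entryNum q` restricted to the rows
  `ρ = {r // r.2.1 + r.2.2 < m r.1}` has trivial kernel, so `exists_minor` gives `R₀ : ↥(tri D) → ρ` with nonzero determinant;
  put `R k = (R₀ k).1`.  With `v_q i = ![q i 0, q i 1, 1]`, `eval_minorPoly` (+ `aff_vec`) gives `eval (ev v_q) (minorPoly n D R) ≠ 0`,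
  so `cfg q hq ∉ loc (minorEq n D R)` (`not_mem_loc_of_eval_ne_zero`), the locus is not `univ`, hence `p ∉ loc (minorEq n D R)` by `hgen`.
  `exists_rep_of_not_mem_loc` gives representatives `w` of `p` with `eval (ev w) (minorPoly n D R) ≠ 0`; all `w i 2 ≠ 0`
  (`eval_minorPoly_of_z_eq_zero`), so by `eval_minorPoly` the determinant of `entryNum (aff ∘ w)` on the rows `R` is `≠ 0`, and
  `aff (w i) = aff (v i)` (`aff_eq_of_mk_eq`).  `ker_of_det` then contradicts the kernel vector given by `hasAff_iff_ker` for `h`.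
* `hasAff_sym`.  `n > 0`, so `Fin n` is an additive group (`NeZero n`).  For `j : Fin n` take `f_j` for the configuration
  `q ∘ (Equiv.addRight j)`: order of `f_j` at `q (i + j)` is `≥ m i`, i.e. at `q l` it is `≥ m (l - j)`.
  `f = ∏_j f_j ≠ 0` (`Finset.prod_ne_zero_iff`), `totalDegree f ≤ ∑_j D = n * D` (`totalDegree_finset_prod`), order at `q l`
  `≥ ∑_j m (l - j) = ∑_i m i` (`orderAtLeast_prod`, `Equiv.sum_comp (Equiv.subLeft l)`).
* `hasAff_pow`: `f ^ k`; `totalDegree_pow`, `orderAtLeast_pow`, `pow_ne_zero`.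
-/

set_option autoImplicit false

namespace Claimed.Agent.R017

open MvPolynomial
open Claims.C0025 Claims.C0025.Nagata Claims.C0025.Nagata.ProjectiveGeometry
open Claims.C0025.Nagata.AffineMultiplicity

theorem hasAff_everywhere {n : ℕ} (p : OrderedDistinctPoints n) (v : Fin n → Fin 3 → ℂ)
    (hv : ∀ i, v i ≠ 0) (hp : ∀ i, Projectivization.mk ℂ (v i) (hv i) = p.val i)
    (hgen : ∀ (D : ℕ) (R : ↥(tri D) → Fin n × ℕ × ℕ),
      loc (minorEq n D R) = Set.univ ∨ p ∉ loc (minorEq n D R))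
    {D : ℕ} {m : Fin n → ℕ} (h : HasAff D m (fun i => aff (v i)))
    (q : Fin n → Fin 2 → ℂ) (hq : Function.Injective q) : HasAff D m q := by
  by_contra hno
  have hker : ∀ c : ↥(tri D) → ℂ,
      (∀ r : {r : Fin n × ℕ × ℕ // r.2.1 + r.2.2 < m r.1},
        ∑ l : ↥(tri D), entryNum q r.1 l.1 * c l = 0) → c = 0 := by
    intro c hc
    by_contra hc0
    exact hno ((hasAff_iff_ker D m q).2 ⟨c, hc0, fun r hr => hc ⟨r, hr⟩⟩)
  obtain ⟨R₀, hR₀⟩ := exists_minor
    (fun (r : {r : Fin n × ℕ × ℕ // r.2.1 + r.2.2 < m r.1}) (l : ↥(tri D)) =>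
      entryNum q r.1 l.1) hker
  set R : ↥(tri D) → Fin n × ℕ × ℕ := fun k => (R₀ k).1 with hR
  set vq : Fin n → Fin 3 → ℂ := fun i => ![q i 0, q i 1, 1] with hvq
  have hvq2 : ∀ i, vq i 2 ≠ 0 := by
    intro i
    simp [hvq]
  have haffq : (fun i => aff (vq i)) = q := by
    funext i
    exact aff_vec (q i)
  have hevq : eval (ev vq) (minorPoly n D R) ≠ 0 := by
    rw [eval_minorPoly R vq hvq2, haffq]
    exact mul_ne_zero (Finset.prod_ne_zero_iff.2 fun i _ => hvq2 i)
      (mul_ne_zero (Finset.prod_ne_zero_iff.2 fun k _ => pow_ne_zero _ (hvq2 _)) hR₀)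
  have hcfg : cfg q hq ∉ loc (minorEq n D R) :=
    not_mem_loc_of_eval_ne_zero (minorEq n D R) (cfg q hq) vq (fun i => vec_ne_zero (q i))
      (fun i => rfl) hevq
  have hpn : p ∉ loc (minorEq n D R) := by
    rcases hgen D R with hu | hu
    · exact absurd (hu ▸ Set.mem_univ _) hcfg
    · exact hu
  obtain ⟨w, hw, hwp, hwe⟩ := exists_rep_of_not_mem_loc (minorEq n D R) p hpn
  have hw2 : ∀ i, w i 2 ≠ 0 := fun i hz => hwe (eval_minorPoly_of_z_eq_zero R w i hz)
  have haffw : (fun i => aff (w i)) = fun i => aff (v i) := by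
    funext i
    exact aff_eq_of_mk_eq (hw i) (hv i) ((hwp i).trans (hp i).symm)
  have hdet : (Matrix.of fun k l : ↥(tri D) =>
      entryNum (fun i => aff (v i)) (R k) l.1).det ≠ 0 := by
    intro h0
    apply hwe
    show eval (ev w) (minorPoly n D R) = 0
    rw [eval_minorPoly R w hw2, haffw, h0]
    simp
  obtain ⟨c, hc0, hc⟩ := (hasAff_iff_ker D m _).1 h
  exact hc0 (ker_of_det
    (fun (r : Fin n × ℕ × ℕ) (l : ↥(tri D)) => entryNum (fun i => aff (v i)) r l.1) R hdet c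
    (fun k => hc (R k) (R₀ k).2))

theorem hasAff_sym {n : ℕ} (hn : 0 < n) {D : ℕ} {m : Fin n → ℕ} (q : Fin n → Fin 2 → ℂ)
    (h : ∀ σ : Equiv.Perm (Fin n), HasAff D m (q ∘ σ)) :
    HasAff (n * D) (fun _ => ∑ i, m i) q := by
  classical
  have : NeZero n := ⟨hn.ne'⟩
  choose f hf0 hfd hfo using fun j : Fin n => h (Equiv.addRight j)
  refine ⟨∏ j, f j, ?_, ?_, ?_⟩
  · exact Finset.prod_ne_zero_iff.mpr (fun j _ => hf0 j)
  · calc (∏ j, f j).totalDegree ≤ ∑ j : Fin n, (f j).totalDegree :=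
          totalDegree_finsetProd _ _
      _ ≤ ∑ _j : Fin n, D := Finset.sum_le_sum (fun j _ => hfd j)
      _ = n * D := by simp
  · intro l
    have h1 : orderAtLeast (q l) (∑ j : Fin n, m (l - j)) (∏ j, f j) := by
      refine orderAtLeast_prod (q l) Finset.univ (fun j => m (l - j)) f ?_
      intro j _
      have h2 := hfo j (l - j)
      simpa [Function.comp] using h2
    have h3 : ∑ j : Fin n, m (l - j) = ∑ i, m i :=
      Equiv.sum_comp (Equiv.subLeft l) m
    rw [h3] at h1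
    exact h1

theorem hasAff_pow {n : ℕ} {D M : ℕ} (q : Fin n → Fin 2 → ℂ) (k : ℕ)
    (h : HasAff D (fun _ => M) q) : HasAff (k * D) (fun _ => k * M) q := by
  obtain ⟨f, hf0, hfd, hfo⟩ := h
  refine ⟨f ^ k, pow_ne_zero k hf0, ?_, fun i => orderAtLeast_pow (q i) k (hfo i)⟩
  exact (totalDegree_pow f k).trans (Nat.mul_le_mul_left k hfd)

end Claimed.Agent.R017
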