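import Claimed.Agent.R017.Order

/-!
# Row 17 chain, file 5: polynomials of degree `<= D` in two variables as coefficient vectors on `tri D`.

`ex a b = single 0 a + single 1 b : Fin 2 →₀ ℕ`,   `polyOf D c = ∑_{(a,b) ∈ tri D} C (c (a,b)) * (X 0 ^ a * X 1 ^ b)`.

PROOF TEXTS (all routine).
* `ex_apply_zero/one`, `ex_degree` (`Finsupp.degree` is additive, `Finsupp.degree_single`), `eq_ex` (`Finsupp.ext`,
  `fin_cases`), `ex_inj` (evaluate at `0` and `1`).
* `monomial_ex`: `monomial_add_single`/`monomial_eq`, or `X_pow_eq_monomial` + `monomial_mul` + `C_mul_monomial`.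
* `coeff_polyOf`: `coeff_sum`, `coeff_C_mul`, rewrite `X 0 ^ a * X 1 ^ b = monomial (ex a b) 1`, `coeff_monomial`, `ex_inj`,
  `Finset.sum_eq_single`.
* `eq_polyOf`: ext on coefficients with `eq_ex`; if `(e 0, e 1) ∉ tri D` then `degree e > D ≥ totalDegree f`, so
  `coeff e f = 0` (`MvPolynomial.coeff_eq_zero_of_totalDegree_lt`; note `∑ i ∈ e.support, e i = e.degree`), and the
  right-hand side has coefficient `0` as well.
* `totalDegree_polyOf_le`: `totalDegree_finset_sum_le`, `totalDegree_mul_le`, `totalDegree_C`, `totalDegree_X_pow`.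
* `polyOf_eq_zero_iff`: from `coeff_polyOf`.
-/

set_option autoImplicit false

namespace Claimed.Agent.R017

open MvPolynomial

theorem ex_apply_zero (a b : ℕ) : ex a b 0 = a := by
  simp [ex]

theorem ex_apply_one (a b : ℕ) : ex a b 1 = b := by
  simp [ex]

theorem ex_degree (a b : ℕ) : (ex a b).degree = a + b := by
  unfold ex
  rw [map_add, Finsupp.degree_single, Finsupp.degree_single]

theorem eq_ex (e : Fin 2 →₀ ℕ) : e = ex (e 0) (e 1) := by
  ext i
  fin_cases i
  · exact (ex_apply_zero _ _).symm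
  · exact (ex_apply_one _ _).symm

theorem ex_inj {a b a' b' : ℕ} (h : ex a b = ex a' b') : a = a' ∧ b = b' := by
  constructor
  · simpa [ex_apply_zero] using DFunLike.congr_fun h 0
  · simpa [ex_apply_one] using DFunLike.congr_fun h 1

theorem monomial_ex (a b : ℕ) (c : ℂ) :
    (monomial (ex a b) c : MvPolynomial (Fin 2) ℂ) = C c * (X 0 ^ a * X 1 ^ b) := by
  rw [X_pow_eq_monomial, X_pow_eq_monomial, monomial_mul, C_mul_monomial, one_mul, mul_one]
  rfl

/-- the polynomial with coefficient vector `c` on `tri D` -/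
noncomputable def polyOf (D : ℕ) (c : ℕ × ℕ → ℂ) : MvPolynomial (Fin 2) ℂ :=
  ∑ ab ∈ tri D, C (c ab) * (X 0 ^ ab.1 * X 1 ^ ab.2)

/-- the coefficient vector of `f` -/
noncomputable def coeffsOf (f : MvPolynomial (Fin 2) ℂ) : ℕ × ℕ → ℂ := fun ab => coeff (ex ab.1 ab.2) f

theorem coeff_polyOf (D : ℕ) (c : ℕ × ℕ → ℂ) (a b : ℕ) :
    coeff (ex a b) (polyOf D c) = if (a, b) ∈ tri D then c (a, b) else 0 := by
  classical
  unfold polyOf
  rw [coeff_sum]
  have h1 : ∀ ab : ℕ × ℕ, coeff (ex a b) (C (c ab) * (X 0 ^ ab.1 * X 1 ^ ab.2) : MvPolynomial (Fin 2) ℂ)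
      = if ab = (a, b) then c ab else 0 := by
    intro ab
    rw [← monomial_ex, coeff_monomial]
    by_cases h : ab = (a, b)
    · subst h
      rw [if_pos rfl, if_pos rfl]
    · rw [if_neg h, if_neg]
      intro h'
      obtain ⟨h2, h3⟩ := ex_inj h'
      exact h (Prod.ext h2 h3)
  rw [Finset.sum_congr rfl (fun ab _ => h1 ab), Finset.sum_ite_eq']

theorem eq_polyOf {D : ℕ} (f : MvPolynomial (Fin 2) ℂ) (hf : f.totalDegree ≤ D) :
    f = polyOf D (coeffsOf f) := by
  ext e
  rw [eq_ex e, coeff_polyOf]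
  split_ifs with h
  · rfl
  · apply MvPolynomial.coeff_eq_zero_of_totalDegree_lt
    rw [mem_tri] at h
    have h2 : (ex (e 0) (e 1)).degree = e 0 + e 1 := ex_degree _ _
    have h3 : (∑ i ∈ (ex (e 0) (e 1)).support, (ex (e 0) (e 1)) i) = (ex (e 0) (e 1)).degree := rfl
    rw [h3, h2]
    simp only at h
    omega

theorem totalDegree_polyOf_le (D : ℕ) (c : ℕ × ℕ → ℂ) : (polyOf D c).totalDegree ≤ D := by
  unfold polyOf
  refine MvPolynomial.totalDegree_finsetSum_le (fun ab hab => ?_)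
  rw [mem_tri] at hab
  calc (C (c ab) * (X 0 ^ ab.1 * X 1 ^ ab.2) : MvPolynomial (Fin 2) ℂ).totalDegree
      ≤ (C (c ab) : MvPolynomial (Fin 2) ℂ).totalDegree
          + (X 0 ^ ab.1 * X 1 ^ ab.2 : MvPolynomial (Fin 2) ℂ).totalDegree := totalDegree_mul _ _
    _ ≤ 0 + ((X 0 ^ ab.1 : MvPolynomial (Fin 2) ℂ).totalDegree
          + (X 1 ^ ab.2 : MvPolynomial (Fin 2) ℂ).totalDegree) := by
        rw [totalDegree_C]
        exact Nat.add_le_add_left (totalDegree_mul _ _) _
    _ = ab.1 + ab.2 := by rw [totalDegree_X_pow, totalDegree_X_pow, zero_add]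
    _ ≤ D := hab

theorem polyOf_eq_zero_iff (D : ℕ) (c : ℕ × ℕ → ℂ) : polyOf D c = 0 ↔ ∀ ab ∈ tri D, c ab = 0 := by
  constructor
  · intro h ab hab
    have h1 := coeff_polyOf D c ab.1 ab.2
    rw [h, coeff_zero, if_pos hab] at h1
    exact h1.symm
  · intro h
    unfold polyOf
    refine Finset.sum_eq_zero (fun ab hab => ?_)
    rw [h ab hab, C_0, zero_mul]

end Claimed.Agent.R017
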